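import Crest.Agent.R344.Defs

/-!
Row 344: choice of parameters.
-/

namespace Crest.Agent.R344

namespace Arith

theorem poly_exp (C k : ℕ) : ∃ l₀ : ℕ, ∀ l ≥ l₀, C * l ^ k ≤ 2 ^ l := by
  have h := tendsto_pow_const_div_const_pow_of_one_lt k (r := 2) (by norm_num)
  have h2 := h.eventually (gt_mem_nhds (show (0 : ℝ) < 1 / (C + 1) by positivity))
  obtain ⟨l₀, hl⟩ := Filter.eventually_atTop.1 h2
  refine ⟨l₀, fun l hl' => ?_⟩
  have h3 := hl l hl'
  rw [div_lt_div_iff₀ (by positivity) (by positivity)] at h3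
  have h4 : (C : ℝ) * (l : ℝ) ^ k ≤ 2 ^ l := by
    have : (0 : ℝ) ≤ (l : ℝ) ^ k := by positivity
    nlinarith
  exact_mod_cast h4

end Arith

theorem arithStmt : ArithStmt := by
  intro b
  set M := 2 ^ (3 * b) with hM
  have hMb : 3 * b ≤ M := Nat.lt_two_pow_self.le
  have hM1 : 1 ≤ M := Nat.one_le_two_pow
  set c := 2 * M * 21 * (64 * 21) ^ (2 * M) with hc
  obtain ⟨l₀, hl₀⟩ := Arith.poly_exp (90 * c ^ (3 * b)) ((3 + 10 * M) * (3 * b))
  refine ⟨3 * b, (3 + 6 * M) * (3 * b), 2 ^ l₀ + 2 ^ (2 * M), fun N hN => ?_⟩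
  have hN1 : 1 ≤ N := le_trans Nat.one_le_two_pow (le_trans (Nat.le_add_right _ _) hN)
  have hex : ∃ R, N < R ^ (2 * M) :=
    ⟨N + 1, (Nat.lt_succ_self N).trans_le (Nat.le_self_pow (by omega) _)⟩
  classical
  set R := Nat.find hex with hR
  have hR1 : N < R ^ (2 * M) := Nat.find_spec hex
  have hR3 : 3 ≤ R := by
    by_contra h
    have : R ^ (2 * M) ≤ 2 ^ (2 * M) := Nat.pow_le_pow_left (by omega) _
    have h2 : 2 ^ (2 * M) ≤ N := le_trans (Nat.le_add_left _ _) hN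
    omega
  have hR2 : (R - 1) ^ (2 * M) ≤ N := not_lt.1 (Nat.find_min hex (by omega))
  have hRN : R ^ (3 * b) ≤ N := by
    have h1 : R ≤ (R - 1) ^ 2 := by
      obtain ⟨r, hr⟩ : ∃ r, R = r + 3 := ⟨R - 3, by omega⟩
      rw [hr, show r + 3 - 1 = r + 2 by omega]; nlinarith
    calc R ^ (3 * b) ≤ R ^ M := Nat.pow_le_pow_right (by omega) hMb
      _ ≤ ((R - 1) ^ 2) ^ M := Nat.pow_le_pow_left h1 _
      _ = (R - 1) ^ (2 * M) := by rw [← pow_mul]
      _ ≤ N := hR2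
  set l := Nat.clog 2 (40 * N + 5) with hl
  have hl1 : 40 * N + 5 ≤ 2 ^ l := Nat.le_pow_clog (by norm_num) _
  have hl2 : 2 ^ l ≤ 90 * N := by
    have h1 : 2 ^ (l - 1) < 40 * N + 5 := Nat.pow_pred_clog_lt_self (b := 2) (by norm_num) (x := 40 * N + 5) (by omega)
    have h2 : 1 ≤ l := Nat.clog_pos (by norm_num) (by omega)
    obtain ⟨k, hk⟩ : ∃ k, l = k + 1 := ⟨l - 1, by omega⟩
    rw [hk] at h1 ⊢
    simp only [Nat.add_sub_cancel] at h1
    rw [pow_succ]; omega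
  have hl3 : l₀ ≤ l := by
    have h1 : 2 ^ l₀ ≤ N := le_trans (Nat.le_add_right _ _) hN
    exact (Nat.pow_le_pow_iff_right (a := 2) (by norm_num)).1 (by omega)
  have hY : (c * l ^ (3 + 10 * M)) ^ (3 * b) ≤ N := by
    have h1 := (hl₀ l hl3).trans hl2
    rw [mul_pow, ← pow_mul]
    rw [mul_assoc] at h1
    omega
  refine ⟨l, R, hl1, hR1, fun D hD => ?_⟩
  have he : 2 * M * (R * l * (21 * l ^ 2 * D ^ 3) * (64 * l ^ 3 * (21 * l ^ 2 * D ^ 3)) ^ (2 * M)) =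
      R * (c * l ^ (3 + 10 * M)) * D ^ (3 + 6 * M) := by
    have : 64 * l ^ 3 * (21 * l ^ 2 * D ^ 3) = (64 * 21) * l ^ 5 * D ^ 3 := by ring
    rw [this, mul_pow, mul_pow, ← pow_mul l, ← pow_mul D, hc, pow_add, pow_add,
      show 5 * (2 * M) = 10 * M by ring, show 3 * (2 * M) = 6 * M by ring]
    generalize (64 * 21) ^ (2 * M) = x
    generalize l ^ (10 * M) = y
    generalize D ^ (6 * M) = z
    ring
  rw [he]
  refine (Nat.pow_le_pow_iff_left (n := 3) (by norm_num)).1 ?_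
  rw [← pow_mul, mul_comm b 3, mul_pow, mul_pow, ← pow_mul D]
  calc _ ≤ N * N * N := Nat.mul_le_mul (Nat.mul_le_mul hRN hY) hD
    _ = N ^ 3 := by ring

end Crest.Agent.R344
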