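import Crest.Agent.R344.Defs

/-! Row 344: the alternating projection bound. -/

set_option maxHeartbeats 400000

namespace Crest.Agent.R344

namespace Core

variable {J A : Type} [Fintype J] [DecidableEq J] [CStarAlgebra A]

/-- the alternating word `a b a b …` of length `j` -/
def alt : ℕ → A → A → A
  | 0, _, _ => 1
  | j + 1, a, b => a * alt j b a

theorem alt_norm (j : ℕ) : ∀ a b : A, ‖a‖ ≤ 1 → ‖b‖ ≤ 1 → ‖alt (j + 1) a b‖ ≤ 1 := by
  induction j with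
  | zero => intro a b ha _; simpa [alt] using ha
  | succ j ih =>
    intro a b ha hb
    rw [alt]
    exact (norm_mul_le _ _).trans (mul_le_one₀ ha (norm_nonneg _) (ih b a hb ha))

theorem alt_odd (M : ℕ) (a b : A) : alt (2 * M + 1) a b = (a * b) ^ M * a := by
  induction M with
  | zero => simp [alt]
  | succ M ih =>
    have : 2 * (M + 1) + 1 = (2 * M + 1) + 1 + 1 := by ring
    rw [this, alt, alt, ih, pow_succ', mul_assoc, mul_assoc]

theorem pow_sandwich (M : ℕ) {a : A} (b : A) (ha : a * a = a) :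
    (a * b * a) ^ (M + 1) = (a * b) ^ (M + 1) * a := by
  induction M with
  | zero => simp
  | succ M ih =>
    rw [pow_succ, ih, pow_succ (a * b) (M + 1)]
    simp only [mul_assoc]
    rw [← mul_assoc a a, ha]

theorem pow_trick {H T : A} (hH : IsStarProjection H) (hT : IsSelfAdjoint T) (a : ℕ) :
    ‖H * T * H‖ ^ (2 ^ a) ≤ ‖H * T ^ (2 ^ a) * H‖ := by
  induction a with
  | zero => simp
  | succ a ih =>
    have h1 : ‖H * T ^ (2 ^ a) * H‖ ≤ ‖H * T ^ (2 ^ a)‖ :=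
      (norm_mul_le _ _).trans (mul_le_of_le_one_right (norm_nonneg _) hH.norm_le)
    have h2 : ‖H * T ^ (2 ^ a)‖ * ‖H * T ^ (2 ^ a)‖ = ‖H * T ^ (2 ^ (a + 1)) * H‖ := by
      rw [← CStarRing.norm_self_mul_star, star_mul, (hT.pow _).star_eq, hH.2.star_eq, pow_succ,
        pow_mul, sq]
      simp only [mul_assoc]
    rw [pow_succ, pow_mul, ← pow_succ, ← h2, sq]
    have h3 := ih.trans h1
    exact mul_le_mul h3 h3 (by positivity) (norm_nonneg _)

theorem gr_eq (Ψ : Spec J A) {N : ℕ} (hJ : Fintype.card J ≤ N) (F : ℕ → ℝ) (c : Finset J → ℝ)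
    (h0 : F 0 = 1) (hc : ∀ y : Finset J, F y.card = ∑ S : Finset J, if S ⊆ y then c S else 0) :
    gr Ψ = ∑ S : Finset J, (c S : ℂ) • mon Ψ S -
      ∑ w ∈ Finset.Icc 1 N, (F w : ℂ) • Ψ (ind fun y => y.card = w) := by
  simp only [gr, mon, ← map_smul, ← map_sum, ← map_sub]
  congr 1
  funext y
  have hy : y.card ≤ N := (Finset.card_le_univ y).trans hJ
  simp only [ind, Pi.sub_apply, Finset.sum_apply, Pi.smul_apply, smul_eq_mul, mul_ite, mul_one,
    mul_zero]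
  have h1 : (∑ S : Finset J, if S ⊆ y then (c S : ℂ) else 0) = (F y.card : ℂ) := by
    rw [hc y]; push_cast
    refine Finset.sum_congr rfl fun S _ => ?_
    split_ifs <;> simp
  rw [h1, Finset.sum_ite_eq]
  by_cases h : y = ∅
  · subst h; simp [h0]
  · have : 1 ≤ y.card := Finset.card_pos.2 (Finset.nonempty_iff_ne_empty.2 h)
    simp [h, this, hy]

theorem half_pow_le {a b c : ℕ} (h : a + c ≤ b) :
    (2 : ℝ) ^ a * (1 / 2) ^ b ≤ (1 / 2) ^ c := by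
  obtain ⟨e, rfl⟩ := Nat.exists_eq_add_of_le h
  have : (2 : ℝ) ^ a * (1 / 2) ^ (a + c + e) = (1 / 2) ^ c * (1 / 2) ^ e := by
    rw [pow_add, pow_add, ← mul_assoc, ← mul_assoc, ← mul_pow]; norm_num
  rw [this]
  exact mul_le_of_le_one_right (by positivity) (pow_le_one₀ (by norm_num) (by norm_num))

theorem step (hP : PolyStmt) (Φ Ψ : Spec J A) {N ℓ E R D P : ℕ} (hJ : Fintype.card J ≤ N)
    (hℓ : 40 * N + 5 ≤ 2 ^ ℓ) (hD : R * ℓ * E ≤ D) (hD1 : 1 ≤ D) (hM : MonB Φ Ψ E)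
    (Y : A) (hY : gr Φ * Y = Y) (hn : ‖Y‖ ≤ 1)
    (ht : ∀ m, N < P * (m * D) → ‖hi Ψ (m * D) * Y‖ ≤ (1 / 2 : ℝ) ^ m) (m : ℕ)
    (hm : N < P * R * (m * (64 * ℓ ^ 3 * E * D))) :
    ‖hi Φ (m * (64 * ℓ ^ 3 * E * D)) * (gr Ψ * Y)‖ ≤ (1 / 2 : ℝ) ^ m := by
  have hℓ3 : 3 ≤ ℓ := by
    by_contra h
    have : ℓ ≤ 2 := by omega
    have := Nat.pow_le_pow_right (n := 2) (by norm_num) this
    omega
  have hm1 : 1 ≤ m := by
    rcases Nat.eq_zero_or_pos m with h | h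
    · subst h; simp at hm
    · exact h
  have hs : 1 ≤ 8 * ℓ * D := Nat.mul_pos (by omega) hD1
  obtain ⟨F, c, h0, hmid, hbig, hc, hl1⟩ := hP J N ℓ m (8 * ℓ * D) hJ hℓ hm1 hs
  set H := hi Φ (m * (64 * ℓ ^ 3 * E * D)) with hH
  have hHn : ‖H‖ ≤ 1 := ind_norm_le Φ _
  set T := 4 * m * (8 * ℓ * D) ^ 2 with hT
  set g := 4 * m * ℓ * (8 * ℓ * D) with hg
  have hTpos : 0 < T := by positivity
  have hmℓ : m + 1 ≤ m * ℓ := by nlinarith
  -- the polynomial part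
  have hA : ‖H * ((∑ S : Finset J, (c S : ℂ) • mon Ψ S) * Y)‖ ≤ (1 / 2 : ℝ) ^ (m + 1) := by
    have e1 : H * ((∑ S : Finset J, (c S : ℂ) • mon Ψ S) * Y) =
        ∑ S : Finset J, (c S : ℂ) • (H * mon Ψ S * gr Φ * Y) := by
      rw [Finset.sum_mul, Finset.mul_sum]
      refine Finset.sum_congr rfl fun S _ => ?_
      rw [smul_mul_assoc, mul_smul_comm, mul_assoc (H * mon Ψ S), hY, mul_assoc]
    have hk : m * (64 * ℓ ^ 3 * E * D) = (64 * m * ℓ ^ 3 * D) * E := by ring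
    rw [e1]
    refine (norm_sum_le _ _).trans ?_
    have e2 : ∀ S : Finset J, ‖(c S : ℂ) • (H * mon Ψ S * gr Φ * Y)‖ ≤
        |c S| * 10 ^ S.card * (1 / 2 : ℝ) ^ (64 * m * ℓ ^ 3 * D) := by
      intro S
      rw [norm_smul, Complex.norm_real, Real.norm_eq_abs, mul_assoc |c S|]
      refine mul_le_mul_of_nonneg_left ?_ (abs_nonneg _)
      have e3 : ‖H * mon Ψ S * gr Φ‖ ≤ 10 ^ S.card * (1 / 2 : ℝ) ^ (64 * m * ℓ ^ 3 * D) := by
        rw [hH, hk]; exact hM S _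
      exact (norm_mul_le _ _).trans ((mul_le_of_le_one_right (norm_nonneg _) hn).trans e3)
    refine le_trans (Finset.sum_le_sum fun S _ => e2 S) ?_
    rw [← Finset.sum_mul]
    refine (mul_le_mul_of_nonneg_right hl1 (by positivity)).trans (half_pow_le ?_)
    have h1 : ℓ * (g + m) = 32 * (m * ℓ ^ 3 * D) + m * ℓ := by rw [hg]; ring
    have h2 : 64 * m * ℓ ^ 3 * D = 64 * (m * ℓ ^ 3 * D) := by ring
    have h3 : m * ℓ ≤ m * ℓ ^ 3 * D := by
      calc m * ℓ = m * ℓ ^ 1 * 1 := by ring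
        _ ≤ m * ℓ ^ 3 * D :=
          Nat.mul_le_mul (Nat.mul_le_mul_left _ (Nat.pow_le_pow_right (by omega) (by omega))) hD1
    omega
  -- the error part
  have hB : ∀ w ∈ Finset.Icc 1 N, ‖(F w : ℂ) • (H * (Ψ (ind fun y => y.card = w) * Y))‖ ≤
      (1 / 2 : ℝ) ^ (2 * m * ℓ) := by
    intro w hw
    obtain ⟨hw1, hwN⟩ := Finset.mem_Icc.1 hw
    rw [norm_smul, Complex.norm_real, Real.norm_eq_abs]
    have e0 : ‖H * (Ψ (ind fun y => y.card = w) * Y)‖ ≤ ‖Ψ (ind fun y => y.card = w) * Y‖ :=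
      (norm_mul_le _ _).trans (mul_le_of_le_one_left (norm_nonneg _) hHn)
    by_cases hwT : w ≤ T
    · have e1 : ‖Ψ (ind fun y => y.card = w) * Y‖ ≤ 1 :=
        (norm_mul_le _ _).trans (mul_le_one₀ (ind_norm_le Ψ _) (norm_nonneg _) hn)
      exact (mul_le_of_le_one_right (abs_nonneg _) (e0.trans e1)).trans (hmid w hw1 hwN hwT)
    · set j := w / T with hj
      have hj1 : 1 ≤ j := (Nat.le_div_iff_mul_le hTpos).2 (by omega)
      have hjT : j * T ≤ w := Nat.div_mul_le_self w T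
      have hwj : w < (j + 1) * T := by
        rw [mul_comm]; exact Nat.lt_mul_div_succ w hTpos
      have e1 : 8 * j * g * D = j * T := by rw [hg, hT]; ring
      have e2 : ‖Ψ (ind fun y => y.card = w) * Y‖ ≤ ‖hi Ψ (8 * j * g * D) * Y‖ :=
        norm_ind_mul_le Ψ (fun y hy => by omega) Y
      have e3 : N < P * (8 * j * g * D) := by
        refine hm.trans_le ?_
        rw [mul_assoc P, e1]
        refine Nat.mul_le_mul_left _ ?_
        calc R * (m * (64 * ℓ ^ 3 * E * D)) = 64 * m * ℓ ^ 2 * D * (R * ℓ * E) := by ring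
          _ ≤ 64 * m * ℓ ^ 2 * D * (4 * D) := Nat.mul_le_mul_left _ (by omega)
          _ = 1 * T := by rw [hT]; ring
          _ ≤ j * T := Nat.mul_le_mul_right _ hj1
      have e4 := (e0.trans e2).trans (ht _ e3)
      refine (mul_le_mul (hbig j w hj1 hwN hwj) e4 (norm_nonneg _) (by positivity)).trans
        (half_pow_le ?_)
      have h1 : m * ℓ ≤ g := by
        rw [hg]
        calc m * ℓ = 1 * m * ℓ * 1 := by ring
          _ ≤ 4 * m * ℓ * (8 * ℓ * D) :=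
            Nat.mul_le_mul (Nat.mul_le_mul_right _ (Nat.mul_le_mul_right _ (by omega))) hs
      have h2 : g ≤ j * g := Nat.le_mul_of_pos_left _ hj1
      have h3 : ℓ * m = m * ℓ := by ring
      have h4 : 4 * j * g = 4 * (j * g) := by ring
      have h5 : 8 * j * g = 8 * (j * g) := by ring
      have h6 : 2 * m * ℓ = 2 * (m * ℓ) := by ring
      omega
  have hB' : ‖H * ((∑ w ∈ Finset.Icc 1 N, (F w : ℂ) • Ψ (ind fun y => y.card = w)) * Y)‖ ≤
      (1 / 2 : ℝ) ^ (m + 1) := by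
    have e1 : H * ((∑ w ∈ Finset.Icc 1 N, (F w : ℂ) • Ψ (ind fun y => y.card = w)) * Y) =
        ∑ w ∈ Finset.Icc 1 N, (F w : ℂ) • (H * (Ψ (ind fun y => y.card = w) * Y)) := by
      rw [Finset.sum_mul, Finset.mul_sum]
      refine Finset.sum_congr rfl fun S _ => ?_
      rw [smul_mul_assoc, mul_smul_comm]
    rw [e1]
    refine (norm_sum_le _ _).trans ((Finset.sum_le_sum hB).trans ?_)
    rw [Finset.sum_const, Nat.card_Icc, nsmul_eq_mul]
    have h1 : ((N + 1 - 1 : ℕ) : ℝ) ≤ 2 ^ ℓ := by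
      have : N + 1 - 1 ≤ 2 ^ ℓ := by omega
      exact_mod_cast this
    refine (mul_le_mul_of_nonneg_right h1 (by positivity)).trans (half_pow_le ?_)
    have h2 : ℓ ≤ m * ℓ := Nat.le_mul_of_pos_left _ hm1
    have h6 : 2 * m * ℓ = 2 * (m * ℓ) := by ring
    omega
  rw [gr_eq Ψ hJ F c h0 hc, sub_mul, mul_sub]
  refine (norm_sub_le _ _).trans ?_
  have : (1 / 2 : ℝ) ^ m = (1 / 2) ^ (m + 1) + (1 / 2) ^ (m + 1) := by ring
  rw [this]
  exact add_le_add hA hB'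

theorem iter (hP : PolyStmt) {N ℓ E R : ℕ} (hJ : Fintype.card J ≤ N)
    (hℓ : 40 * N + 5 ≤ 2 ^ ℓ) (hE : 1 ≤ E) (hR : 1 ≤ R) (j : ℕ) :
    ∀ Φ Ψ : Spec J A, MonB Φ Ψ E → MonB Ψ Φ E → ∀ m,
      N < R ^ j * (m * (R * ℓ * E * (64 * ℓ ^ 3 * E) ^ j)) →
      ‖hi Ψ (m * (R * ℓ * E * (64 * ℓ ^ 3 * E) ^ j)) * alt (j + 1) (gr Φ) (gr Ψ)‖ ≤
        (1 / 2 : ℝ) ^ m := by
  have hℓ1 : 1 ≤ ℓ := by
    rcases Nat.eq_zero_or_pos ℓ with h | h
    · subst h; omega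
    · exact h
  induction j with
  | zero =>
    intro Φ Ψ _ _ m hm
    have : hi Ψ (m * (R * ℓ * E * (64 * ℓ ^ 3 * E) ^ 0)) = 0 := by
      rw [hi, ← map_zero Ψ]; congr 1; funext y
      have hy : y.card ≤ N := (Finset.card_le_univ y).trans hJ
      rw [pow_zero, one_mul] at hm
      simp only [ind, Pi.zero_apply]
      rw [if_neg (by omega)]
    rw [this]; simp
  | succ j ih =>
    intro Φ Ψ h1 h2 m hm
    have hq : 1 ≤ (64 * ℓ ^ 3 * E) ^ j := Nat.one_le_pow _ _ (by positivity)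
    have e : R * ℓ * E * (64 * ℓ ^ 3 * E) ^ (j + 1) =
        64 * ℓ ^ 3 * E * (R * ℓ * E * (64 * ℓ ^ 3 * E) ^ j) := by ring
    rw [e] at hm ⊢
    rw [alt]
    refine step hP Ψ Φ (P := R ^ j) (R := R) hJ hℓ (Nat.le_mul_of_pos_right _ hq)
      (Nat.mul_pos (by positivity) hq) h2 _ ?_
      (alt_norm j _ _ (ind_norm_le Ψ _) (ind_norm_le Φ _)) (ih Ψ Φ h2 h1) m (by rwa [← pow_succ])
    have hq : gr Ψ * gr Ψ = gr Ψ := (ind_proj Ψ _).1.eq
    change gr Ψ * alt (j + 1) (gr Ψ) (gr Φ) = alt (j + 1) (gr Ψ) (gr Φ)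
    rw [alt, ← mul_assoc, hq]

end Core

open _root_.Crest.Agent.R344.Core in
theorem coreStmt_of (hP : PolyStmt) : CoreStmt := by
  intro J A _ _ _ Φ Ψ N ℓ E R a hJ hℓ hE hR h1 h2 k
  have hR1 : 1 ≤ R := by
    rcases Nat.eq_zero_or_pos R with h | h
    · subst h; simp at hR
    · exact h
  have hℓ1 : 1 ≤ ℓ := by
    rcases Nat.eq_zero_or_pos ℓ with h | h
    · subst h; omega
    · exact h
  have hQ : IsStarProjection (gr Ψ) := ind_proj Ψ _
  have hG : IsStarProjection (gr Φ) := ind_proj Φ _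
  set D := R * ℓ * E * (64 * ℓ ^ 3 * E) ^ (2 * 2 ^ a) with hD
  have hH : IsStarProjection (hi Φ (k * (2 * 2 ^ a * D))) := ind_proj Φ _
  rcases Nat.eq_zero_or_pos k with hk | hk
  · subst hk
    rw [pow_zero]
    exact (norm_mul_le _ _).trans (mul_le_one₀ ((norm_mul_le _ _).trans
      (mul_le_one₀ hH.norm_le (norm_nonneg _) hQ.norm_le)) (norm_nonneg _) hG.norm_le)
  have hDpos : 0 < D := by positivity
  have e : k * (2 * 2 ^ a * D) = (k * (2 * 2 ^ a)) * D := by ring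
  have h3 := iter hP hJ hℓ hE hR1 (2 * 2 ^ a) Ψ Φ h2 h1 (k * (2 * 2 ^ a))
    (hR.trans_le (Nat.le_mul_of_pos_right _ (by positivity)))
  rw [← hD, ← e, alt_odd] at h3
  set H := hi Φ (k * (2 * 2 ^ a * D)) with hHdef
  have hT : IsSelfAdjoint (gr Ψ * gr Φ * gr Ψ) := by
    unfold IsSelfAdjoint
    rw [star_mul, star_mul, hQ.2.star_eq, hG.2.star_eq, mul_assoc]
  have h4 := pow_trick hH hT a
  obtain ⟨M, hM⟩ : ∃ M, 2 ^ a = M + 1 := ⟨2 ^ a - 1, by have := Nat.one_le_two_pow (n := a); omega⟩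
  have h5 : ‖H * (gr Ψ * gr Φ * gr Ψ) ^ (2 ^ a) * H‖ ≤ (1 / 2 : ℝ) ^ (k * (2 * 2 ^ a)) := by
    refine ((norm_mul_le _ _).trans (mul_le_of_le_one_right (norm_nonneg _) hH.norm_le)).trans ?_
    have : (gr Ψ * gr Φ * gr Ψ) ^ (2 ^ a) = (gr Ψ * gr Φ) ^ (2 ^ a) * gr Ψ := by
      rw [hM]; exact pow_sandwich M _ hQ.1.eq
    rw [this]; exact h3
  have h6 : ‖H * gr Ψ * gr Φ‖ ^ 2 = ‖H * (gr Ψ * gr Φ * gr Ψ) * H‖ := by
    rw [sq, ← CStarRing.norm_self_mul_star, star_mul, star_mul, hQ.2.star_eq, hG.2.star_eq,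
      hH.2.star_eq]
    simp only [mul_assoc]
    rw [← mul_assoc (gr Φ) (gr Φ), hG.1.eq]
  have h7 : ‖H * gr Ψ * gr Φ‖ ^ (2 * 2 ^ a) ≤ ((1 / 2 : ℝ) ^ k) ^ (2 * 2 ^ a) := by
    rw [pow_mul, h6, ← pow_mul]; exact h4.trans h5
  exact (pow_le_pow_iff_left₀ (norm_nonneg _) (by positivity) (by positivity)).1 h7

end Crest.Agent.R344
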