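import Mathlib
import Crest.Prelude.Def_QCircuit

/-!
Row 344 (parity is not computed by constant-depth quantum circuits): interface.

A *spectral family* `Φ : Spec J A` is a star homomorphism from functions on patterns `y ⊆ J` to a
C⋆-algebra; it encodes commuting projectors `nn Φ K` and the counter `W = ∑ K, nn Φ K`.
-/

set_option maxHeartbeats 400000

namespace Crest.Agent.R344

open Crest.Quantum.Circuit

/-- Spectral family of a commuting family of projectors indexed by `J`. -/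
abbrev Spec (J A : Type) [Fintype J] [DecidableEq J] [CStarAlgebra A] : Type :=
  (Finset J → ℂ) →⋆ₐ[ℂ] A

section Abstract

variable {J A : Type} [Fintype J] [DecidableEq J] [CStarAlgebra A]

/-- indicator function of a decidable set of patterns -/
def ind (q : Finset J → Prop) [DecidablePred q] : Finset J → ℂ := fun y => if q y then 1 else 0

/-- projector onto `W ≥ u` -/
noncomputable def hi (Φ : Spec J A) (u : ℕ) : A := Φ (ind fun y => u ≤ y.card)
/-- projector onto `W = 0` -/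
noncomputable def gr (Φ : Spec J A) : A := Φ (ind fun y => y = ∅)
/-- monomial `∏ K ∈ S, nn Φ K` -/
noncomputable def mon (Φ : Spec J A) (S : Finset J) : A := Φ (ind fun y => S ⊆ y)
/-- the projector number `K` -/
noncomputable def nn (Φ : Spec J A) (K : J) : A := Φ (ind fun y => K ∈ y)

/-- `X` creates at least `k * D` excitations out of the ground space with amplitude `≤ 2⁻ᵏ`. -/
def Tail (Φ : Spec J A) (X : A) (D : ℕ) : Prop :=
  ∀ k : ℕ, ‖hi Φ (k * D) * X * gr Φ‖ ≤ (1 / 2 : ℝ) ^ k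

/-- Monomial bound: monomials of `Ψ` have tails with respect to `Φ`. -/
def MonB (Φ Ψ : Spec J A) (E : ℕ) : Prop :=
  ∀ (S : Finset J) (k : ℕ), ‖hi Φ (k * E) * mon Ψ S * gr Φ‖ ≤ 10 ^ S.card * (1 / 2 : ℝ) ^ k

/-- transport of a spectral family along an automorphism -/
noncomputable def Spec.map (Φ : Spec J A) (α : A ≃⋆ₐ[ℂ] A) : Spec J A :=
  (α : A →⋆ₐ[ℂ] A).comp Φ

@[simp] theorem Spec.map_apply (Φ : Spec J A) (α : A ≃⋆ₐ[ℂ] A) (f : Finset J → ℂ) :
    Φ.map α f = α (Φ f) := rfl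

omit [Fintype J] [DecidableEq J] in
theorem ind_mul (p q : Finset J → Prop) [DecidablePred p] [DecidablePred q] :
    ind p * ind q = ind fun y => p y ∧ q y := by
  funext y; by_cases hp : p y <;> by_cases hq : q y <;> simp [ind, hp, hq]

omit [Fintype J] [DecidableEq J] in
theorem ind_congr {p q : Finset J → Prop} [DecidablePred p] [DecidablePred q]
    (h : ∀ y, p y ↔ q y) : ind p = ind q := by
  funext y; simp [ind, h y]

omit [Fintype J] [DecidableEq J] in
theorem star_ind (p : Finset J → Prop) [DecidablePred p] : star (ind p) = ind p := by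
  funext y; by_cases hp : p y <;> simp [ind, hp]

theorem spec_comm (Φ : Spec J A) (f g : Finset J → ℂ) : Commute (Φ f) (Φ g) := by
  unfold Commute SemiconjBy; rw [← map_mul, ← map_mul, mul_comm]

theorem spec_norm_le (Φ : Spec J A) (f : Finset J → ℂ) {b : ℝ} (hb : 0 ≤ b)
    (h : ∀ y, ‖f y‖ ≤ b) : ‖Φ f‖ ≤ b :=
  (NonUnitalStarAlgHom.norm_apply_le Φ f).trans ((pi_norm_le_iff_of_nonneg hb).2 h)

theorem ind_proj (Φ : Spec J A) (p : Finset J → Prop) [DecidablePred p] :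
    IsStarProjection (Φ (ind p)) := by
  refine ⟨?_, ?_⟩
  · unfold IsIdempotentElem; rw [← map_mul, ind_mul]; congr 1; exact ind_congr (by simp)
  · unfold IsSelfAdjoint; rw [← map_star, star_ind]

theorem ind_norm_le (Φ : Spec J A) (p : Finset J → Prop) [DecidablePred p] :
    ‖Φ (ind p)‖ ≤ 1 :=
  spec_norm_le Φ _ zero_le_one fun y => by by_cases hp : p y <;> simp [ind, hp]

/-- a smaller projector on the left gives a smaller norm -/
theorem norm_ind_mul_le (Φ : Spec J A) {p q : Finset J → Prop} [DecidablePred p] [DecidablePred q]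
    (h : ∀ y, p y → q y) (X : A) : ‖Φ (ind p) * X‖ ≤ ‖Φ (ind q) * X‖ := by
  have : Φ (ind p) = Φ (ind p) * Φ (ind q) := by
    rw [← map_mul, ind_mul]; congr 1; exact ind_congr fun y => ⟨fun a => ⟨a, h y a⟩, fun a => a.1⟩
  rw [this, mul_assoc]
  exact (norm_mul_le _ _).trans (mul_le_of_le_one_left (norm_nonneg _) (ind_norm_le Φ p))

/-- a smaller projector on the right gives a smaller norm -/
theorem norm_mul_ind_le (Φ : Spec J A) {p q : Finset J → Prop} [DecidablePred p] [DecidablePred q]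
    (h : ∀ y, p y → q y) (X : A) : ‖X * Φ (ind p)‖ ≤ ‖X * Φ (ind q)‖ := by
  have : Φ (ind p) = Φ (ind q) * Φ (ind p) := by
    rw [← map_mul, ind_mul]; congr 1; exact ind_congr fun y => ⟨fun a => ⟨h y a, a⟩, fun a => a.2⟩
  rw [this, ← mul_assoc]
  exact (norm_mul_le _ _).trans (mul_le_of_le_one_right (norm_nonneg _) (ind_norm_le Φ p))

theorem hi_mono (Φ : Spec J A) {u v : ℕ} (h : u ≤ v) (X : A) : ‖hi Φ v * X‖ ≤ ‖hi Φ u * X‖ :=
  norm_ind_mul_le Φ (fun _ hy => h.trans hy) X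

theorem Tail.mono {Φ : Spec J A} {X : A} {D D' : ℕ} (h : Tail Φ X D) (hD : D ≤ D') :
    Tail Φ X D' := fun k => by
  have := hi_mono Φ (Nat.mul_le_mul_left k hD) (X * gr Φ)
  rw [← mul_assoc, ← mul_assoc] at this
  exact this.trans (h k)

theorem mon_empty (Φ : Spec J A) : mon Φ ∅ = 1 := by
  have : (ind fun y : Finset J => (∅ : Finset J) ⊆ y) = 1 := by funext y; simp [ind]
  rw [mon, this, map_one]

theorem mon_insert (Φ : Spec J A) (K : J) (S : Finset J) :
    mon Φ (insert K S) = mon Φ S * nn Φ K := by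
  rw [mon, mon, nn, ← map_mul, ind_mul]; congr 1
  exact ind_congr fun y => by simp [Finset.insert_subset_iff, and_comm]

end Abstract

section Counters

variable {ι M A : Type} [Fintype ι] [DecidableEq ι] [Monoid M] [StarMul M] [CStarAlgebra A]

/-- restriction of a product family to the block `β⁻¹ K` -/
def res (β : ι → ι) (K : ι) (a : ι → M) : ι → M := fun i => if β i = K then a i else 1

/-- a family of one-site projectors (a product projector) -/
def IsProj (a : ι → M) : Prop := ∀ i, IsStarProjection (a i)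

/-- the reflection `G_K = 1 - 2 g_K` on the block `K` -/
noncomputable def refl (τ : (ι → M) →⋆* A) (β : ι → ι) (g : ι → M) (K : ι) : A :=
  1 - (2 : ℂ) • τ (res β K g)

/-- the projector `n_K = 1 - G_K P_K G_K` -/
noncomputable def cn (τ : (ι → M) →⋆* A) (β : ι → ι) (g p : ι → M) (K : ι) : A :=
  1 - refl τ β g K * τ (res β K p) * refl τ β g K

/-- `Φ` is a counter: its projectors are `1 - G_K P_K G_K` on disjoint blocks. -/
def IsCtr (τ : (ι → M) →⋆* A) (Φ : Spec ι A) : Prop :=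
  ∃ (β : ι → ι) (g p : ι → M), IsProj g ∧ IsProj p ∧ ∀ K, nn Φ K = cn τ β g p K

/-- one direction of being a layer: product projectors go to ground projectors of counters -/
def ToCtr (τ : (ι → M) →⋆* A) (α : A ≃⋆ₐ[ℂ] A) : Prop :=
  ∀ a : ι → M, IsProj a → ∃ Ψ : Spec ι A, IsCtr τ Ψ ∧ α (τ a) = gr Ψ

/-- abstract layer -/
def IsLayer (τ : (ι → M) →⋆* A) (α : A ≃⋆ₐ[ℂ] A) : Prop := ToCtr τ α ∧ ToCtr τ α⁻¹

/-- the induction hypothesis for an automorphism `α` -/
def Hyp (τ : (ι → M) →⋆* A) (α : A ≃⋆ₐ[ℂ] A) (D : ℕ) : Prop :=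
  ∀ Φ : Spec ι A, IsCtr τ Φ → ∀ a : ι → M, IsProj a → Tail Φ (α (τ a)) D

omit [Fintype ι] in
theorem IsProj.res {a : ι → M} (h : IsProj a) (β : ι → ι) (K : ι) : IsProj (res β K a) := by
  intro i; unfold R344.res; split_ifs
  · exact h i
  · exact IsStarProjection.one M

omit [Fintype ι] [DecidableEq ι] in
theorem IsProj.map {a : ι → M} (h : IsProj a) (τ : (ι → M) →⋆* A) : IsStarProjection (τ a) := by
  refine ⟨?_, ?_⟩
  · unfold IsIdempotentElem; rw [← map_mul]; congr 1; funext i; exact (h i).1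
  · unfold IsSelfAdjoint; rw [← map_star]; congr 1; funext i; exact (h i).2

omit [Fintype ι] [DecidableEq ι] in
/-- families with disjoint supports commute -/
theorem tau_comm (τ : (ι → M) →⋆* A) {a b : ι → M} (h : ∀ i, a i = 1 ∨ b i = 1) :
    Commute (τ a) (τ b) := by
  unfold Commute SemiconjBy; rw [← map_mul, ← map_mul]; congr 1; funext i
  rcases h i with h | h <;> simp [h]

end Counters

section Concrete

open scoped Matrix.Norms.L2Operator

/-- one-qubit matrices -/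
abbrev M2 : Type := Matrix Bool Bool ℂ
/-- `N`-qubit matrices (a C⋆-algebra under `open scoped Matrix.Norms.L2Operator`) -/
abbrev Mat (N : ℕ) : Type := Matrix (Fin N → Bool) (Fin N → Bool) ℂ

/-- tensor product of one-qubit matrices, as a function -/
noncomputable def tensFun {N : ℕ} (a : Fin N → M2) : Mat N :=
  Matrix.of fun σ σ' => ∏ i, a i (σ i) (σ' i)

/-- tensor product of one-qubit matrices -/
noncomputable def tens (N : ℕ) : (Fin N → M2) →⋆* Mat N where
  toFun := tensFun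
  map_one' := by
    ext σ σ'
    simp only [tensFun, Matrix.of_apply, Pi.one_apply, Matrix.one_apply]
    rw [Finset.prod_boole]
    simp [funext_iff]
  map_mul' a b := by
    ext σ σ'
    simp only [tensFun, Matrix.of_apply, Pi.mul_apply, Matrix.mul_apply]
    rw [Finset.prod_univ_sum, Fintype.piFinset_univ]
    simp only [Finset.prod_mul_distrib]
  map_star' a := by
    ext σ σ'
    simp [tensFun, Matrix.star_apply]

theorem tens_apply {N : ℕ} (a : Fin N → M2) (σ σ' : Fin N → Bool) :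
    tens N a σ σ' = ∏ i, a i (σ i) (σ' i) := rfl

end Concrete

/-! ### Statements -/

/-- The approximating polynomial. `g = 4 m ℓ s` is the Chebyshev degree, `T = 4 m s²`. -/
def PolyStmt : Prop :=
  ∀ (J : Type) [Fintype J] [DecidableEq J] (N ℓ m s : ℕ), Fintype.card J ≤ N →
    40 * N + 5 ≤ 2 ^ ℓ → 1 ≤ m → 1 ≤ s →
    ∃ (F : ℕ → ℝ) (c : Finset J → ℝ), F 0 = 1 ∧
      (∀ w, 1 ≤ w → w ≤ N → w ≤ 4 * m * s ^ 2 → |F w| ≤ (1 / 2) ^ (2 * m * ℓ)) ∧
      (∀ j w, 1 ≤ j → w ≤ N → w < (j + 1) * (4 * m * s ^ 2) →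
        |F w| ≤ 2 ^ (ℓ * m + 4 * j * (4 * m * ℓ * s))) ∧
      (∀ y : Finset J, F y.card = ∑ S : Finset J, if S ⊆ y then c S else 0) ∧
      ∑ S : Finset J, |c S| * 10 ^ S.card ≤ 2 ^ (ℓ * (4 * m * ℓ * s + m))

/-- The alternating projection bound. -/
def CoreStmt : Prop :=
  ∀ (J A : Type) [Fintype J] [DecidableEq J] [CStarAlgebra A] (Φ Ψ : Spec J A)
    (N ℓ E R a : ℕ), Fintype.card J ≤ N → 40 * N + 5 ≤ 2 ^ ℓ → 1 ≤ E → N < R ^ (2 * 2 ^ a) →
    MonB Φ Ψ E → MonB Ψ Φ E →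
    Tail Φ (gr Ψ) (2 * 2 ^ a * (R * ℓ * E * (64 * ℓ ^ 3 * E) ^ (2 * 2 ^ a)))

/-- Commuting projectors have a spectral family. -/
def SpecStmt : Prop :=
  ∀ (J A : Type) [Fintype J] [DecidableEq J] [CStarAlgebra A] (n : J → A),
    (∀ K, IsStarProjection (n K)) → (∀ K K', Commute (n K) (n K')) →
    ∃ Φ : Spec J A, ∀ K, nn Φ K = n K

/-- Criterion for `ToCtr`. -/
def CritStmt : Prop :=
  ∀ (ι M A : Type) [Fintype ι] [DecidableEq ι] [Monoid M] [StarMul M] [CStarAlgebra A]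
    (τ : (ι → M) →⋆* A) (α : A ≃⋆ₐ[ℂ] A) (β : ι → ι) (g a p : ι → M),
    IsProj g → IsProj a → IsProj p →
    (∀ K, α (τ (res β K a)) = refl τ β g K * τ (res β K p) * refl τ β g K) →
    ∃ Ψ : Spec ι A, (∀ K, nn Ψ K = cn τ β g p K) ∧ α (τ a) = gr Ψ

/-- Depth zero. -/
def BaseStmt : Prop :=
  ∀ (ι M A : Type) [Fintype ι] [DecidableEq ι] [Monoid M] [StarMul M] [CStarAlgebra A]
    (τ : (ι → M) →⋆* A), Hyp τ 1 2

/-- From product projectors to monomials of counters. -/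
def MonStmt : Prop :=
  ∀ (ι M A : Type) [Fintype ι] [DecidableEq ι] [Monoid M] [StarMul M] [CStarAlgebra A]
    (τ : (ι → M) →⋆* A) (α : A ≃⋆ₐ[ℂ] A) (N ℓ D : ℕ), Fintype.card ι ≤ N →
    40 * N + 5 ≤ 2 ^ ℓ → 1 ≤ D → Hyp τ α D →
    ∀ Φ Ψ : Spec ι A, IsCtr τ Φ → IsCtr τ Ψ → MonB Φ (Ψ.map α) (21 * ℓ ^ 2 * D ^ 3)

/-- Choice of parameters in the induction on the depth. -/
def ArithStmt : Prop :=
  ∀ b : ℕ, ∃ (a b' N₀ : ℕ), ∀ N ≥ N₀, ∃ ℓ R : ℕ, 40 * N + 5 ≤ 2 ^ ℓ ∧ N < R ^ (2 * 2 ^ a) ∧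
    ∀ D : ℕ, D ^ b' ≤ N →
      (2 * 2 ^ a * (R * ℓ * (21 * ℓ ^ 2 * D ^ 3) *
        (64 * ℓ ^ 3 * (21 * ℓ ^ 2 * D ^ 3)) ^ (2 * 2 ^ a))) ^ b ≤ N

/-- The main abstract theorem. -/
def MainStmt : Prop :=
  ∀ t b : ℕ, ∃ N₀ : ℕ, ∀ N ≥ N₀, ∃ D : ℕ, 1 ≤ D ∧ D ^ b ≤ N ∧
    ∀ (ι M A : Type) [Fintype ι] [DecidableEq ι] [Monoid M] [StarMul M] [CStarAlgebra A]
      (τ : (ι → M) →⋆* A), Fintype.card ι ≤ N →
      ∀ l : List (A ≃⋆ₐ[ℂ] A), l.length = t → (∀ α ∈ l, IsLayer τ α) → Hyp τ l.prod D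

section Concrete

open scoped Matrix.Norms.L2Operator

/-- Well-formed layers are abstract layers. -/
def LayerStmt : Prop :=
  ∀ (N : ℕ) (L : List (Gate N)), LayerWF L → ∃ U : unitary (Mat N),
    (∀ ψ : QState N, applyLayer L ψ = (U : Mat N).mulVec ψ) ∧
      IsLayer (tens N) (Unitary.conjStarAlgAut ℂ (Mat N) U)

/-- Reduction from parity. -/
def FinalStmt : Prop :=
  ∀ (n N : ℕ), 1 ≤ n → n ≤ N → ∀ (U : unitary (Mat N)) (o : Fin N) (ε : ℝ),
    (∀ Φ : Spec (Fin N) (Mat N), IsCtr (tens N) Φ → ∀ a : Fin N → M2, IsProj a →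
      ‖hi Φ n * (star (U : Mat N) * tens N a * (U : Mat N)) * gr Φ‖ < ε) →
    ∃ x : Fin n → Bool,
      outcomeProb o (parity x) ((U : Mat N).mulVec (basisState (inputString n x))) < 1 / 2 + ε

end Concrete

end Crest.Agent.R344
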