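import Crest.Agent.R344.Defs

/-!
Row 344: the reduction from parity.
-/

set_option maxHeartbeats 400000
set_option autoImplicit false

namespace Crest.Agent.R344

open Crest.Quantum.Circuit
open scoped Matrix.Norms.L2Operator

namespace Final

/-- `1 / √2` -/
noncomputable def r : ℂ := ((√(1 / 2) : ℝ) : ℂ)

theorem r_mul_r : r * r = 1 / 2 := by
  rw [r, ← Complex.ofReal_mul, Real.mul_self_sqrt (by norm_num)]; norm_num

theorem star_r : star r = r := Complex.conj_ofReal _

/-- signs -/
def sg (b c : Bool) : ℂ := if b && c then -1 else 1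

theorem star_sg (b c : Bool) : star (sg b c) = sg b c := by
  cases b <;> cases c <;> simp [sg]

/-- `|φ_b⟩⟨0|` -/
noncomputable def V (b : Bool) : M2 := Matrix.of fun c c' => if c' then 0 else r * sg b c
/-- `|φ_b⟩⟨φ_b|` -/
noncomputable def P (b : Bool) : M2 := Matrix.of fun c c' => 1 / 2 * sg b c * sg b c'
/-- `|0⟩⟨0|` -/
noncomputable def E0 : M2 := Matrix.of fun c c' => if c || c' then 0 else 1
/-- `|1⟩⟨1|` -/
noncomputable def E1 : M2 := Matrix.of fun c c' => if c && c' then 1 else 0

theorem star_V_mul_V (b : Bool) : star (V b) * V b = E0 := by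
  have h := r_mul_r
  ext c c'
  simp only [Matrix.mul_apply, Matrix.star_apply, V, E0, Matrix.of_apply, Fintype.sum_bool]
  cases b <;> cases c <;> cases c' <;> simp [star_r, sg, -RCLike.star_def] <;>
    linear_combination 2 * h

theorem P_mul_V (b : Bool) : P b * V b = V b := by
  ext c c'
  simp only [Matrix.mul_apply, V, P, Matrix.of_apply, Fintype.sum_bool]
  cases b <;> cases c <;> cases c' <;> simp [sg] <;> ring

theorem P_mul_V_not (b : Bool) : P b * V (!b) = 0 := by
  ext c c'
  simp only [Matrix.mul_apply, V, P, Matrix.of_apply, Fintype.sum_bool]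
  cases b <;> cases c <;> cases c' <;> simp [sg]

theorem P_proj (b : Bool) : IsStarProjection (P b) := by
  constructor
  · unfold IsIdempotentElem
    ext c c'
    simp only [Matrix.mul_apply, P, Matrix.of_apply, Fintype.sum_bool]
    cases b <;> cases c <;> cases c' <;> simp [sg] <;> ring
  · unfold IsSelfAdjoint
    ext c c'
    simp only [Matrix.star_apply, P, Matrix.of_apply]
    cases b <;> cases c <;> cases c' <;> simp [sg]

theorem E0_proj : IsStarProjection E0 := by
  constructor
  · unfold IsIdempotentElem
    ext c c'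
    simp only [Matrix.mul_apply, E0, Matrix.of_apply, Fintype.sum_bool]
    cases c <;> cases c' <;> simp
  · unfold IsSelfAdjoint
    ext c c'
    simp only [Matrix.star_apply, E0, Matrix.of_apply]
    cases c <;> cases c' <;> simp

theorem E1_proj : IsStarProjection E1 := by
  constructor
  · unfold IsIdempotentElem
    ext c c'
    simp only [Matrix.mul_apply, E1, Matrix.of_apply, Fintype.sum_bool]
    cases c <;> cases c' <;> simp
  · unfold IsSelfAdjoint
    ext c c'
    simp only [Matrix.star_apply, E1, Matrix.of_apply]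
    cases c <;> cases c' <;> simp

variable {N : ℕ}

theorem norm_entry_le (A : Mat N) (σ τ : Fin N → Bool) : ‖A σ τ‖ ≤ ‖A‖ := by
  have h1 := Matrix.l2_opNorm_mulVec A (EuclideanSpace.single τ (1 : ℂ))
  have h2 := PiLp.norm_apply_le
    ((EuclideanSpace.equiv (Fin N → Bool) ℂ).symm
      (A.mulVec (EuclideanSpace.single τ (1 : ℂ) : EuclideanSpace ℂ (Fin N → Bool)))) σ
  simp only [PiLp.norm_single, norm_one, mul_one] at h1
  refine le_trans (le_of_eq ?_) (h2.trans h1)
  simp

/-- the family of one-site isometries -/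
noncomputable def v (n : ℕ) (s : Fin N → Bool) : Fin N → M2 :=
  fun i => if (i : ℕ) < n then V (s i) else E0

/-- the family of one-site projectors -/
noncomputable def p (n : ℕ) (s : Fin N → Bool) : Fin N → M2 :=
  fun i => if (i : ℕ) < n then P (s i) else 1

theorem p_proj (n : ℕ) (s : Fin N → Bool) : IsProj (p n s) := by
  intro i; unfold p; split_ifs
  · exact P_proj _
  · exact IsStarProjection.one _

theorem norm_w_le (n : ℕ) (s : Fin N → Bool) : ‖tens N (v n s)‖ ≤ 1 := by
  have h1 : star (tens N (v n s)) * tens N (v n s) = tens N (fun _ => E0) := by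
    rw [← map_star, ← map_mul]
    congr 1
    funext i
    simp only [Pi.mul_apply, Pi.star_apply, v]
    split_ifs
    · exact star_V_mul_V _
    · rw [E0_proj.isSelfAdjoint.star_eq, E0_proj.isIdempotentElem.eq]
  have h2 : ‖tens N (fun _ => E0)‖ ≤ 1 := (IsProj.map (fun _ => E0_proj) (tens N)).norm_le
  rw [← h1, CStarRing.norm_star_mul_self] at h2
  nlinarith [norm_nonneg (tens N (v n s))]

theorem p_mul_w (n : ℕ) (s : Fin N → Bool) :
    tens N (p n s) * tens N (v n s) = tens N (v n s) := by
  rw [← map_mul]
  congr 1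
  funext i
  simp only [Pi.mul_apply, v, p]
  split_ifs
  · exact P_mul_V _
  · exact one_mul _

theorem res_mul_w (n : ℕ) (s : Fin N → Bool) (K : Fin N) (hK : (K : ℕ) < n) :
    tens N (res id K (p n s)) * tens N (v n (fun i => !s i)) = 0 := by
  rw [← map_mul]
  ext σ τ
  rw [tens_apply]
  refine Finset.prod_eq_zero (Finset.mem_univ K) ?_
  simp only [Pi.mul_apply, res, id, if_true, p, v, hK, P_mul_V_not, Matrix.zero_apply]

/-- the bound from the hypothesis -/
theorem entry_lt (hC : CritStmt) {n : ℕ} (hn : n ≤ N) (O : Mat N) {ε : ℝ}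
    (h : ∀ Φ : Spec (Fin N) (Mat N), IsCtr (tens N) Φ → ‖hi Φ n * O * gr Φ‖ < ε)
    (s : Fin N → Bool) :
    ‖(star (tens N (v n (fun i => !s i))) * O * tens N (v n s)) (fun _ => false) (fun _ => false)‖
      < ε := by
  have hrefl : ∀ K : Fin N, refl (tens N) id (1 : Fin N → M2) K = -1 := fun K => by
    have : res id K (1 : Fin N → M2) = 1 := by funext i; simp [res]
    rw [refl, this, map_one, two_smul]; abel
  have h1 : IsProj (1 : Fin N → M2) := fun _ => IsStarProjection.one _
  obtain ⟨Ψ, hΨ, hgr⟩ := hC (Fin N) M2 (Mat N) (tens N) (StarAlgEquiv.refl ℂ (Mat N)) id 1 (p n s)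
    (p n s) h1 (p_proj n s) (p_proj n s) (fun K => by rw [hrefl]; simp)
  have hgr' : gr Ψ = tens N (p n s) := hgr.symm
  set w := tens N (v n s) with hw
  set w' := tens N (v n (fun i => !s i)) with hw'
  have hnn : ∀ K : Fin N, (K : ℕ) < n → nn Ψ K * w' = w' := fun K hK => by
    rw [hΨ, cn, hrefl, neg_one_mul, mul_neg_one, neg_neg, sub_mul, one_mul, hw',
      res_mul_w n s K hK, sub_zero]
  have hmon : ∀ S : Finset (Fin N), (∀ K ∈ S, (K : ℕ) < n) → mon Ψ S * w' = w' := by
    intro S
    induction S using Finset.induction_on with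
    | empty => intro _; rw [mon_empty, one_mul]
    | insert K S _ ih =>
      intro hS
      rw [mon_insert, mul_assoc, hnn K (hS K (Finset.mem_insert_self _ _)),
        ih fun K' hK' => hS K' (Finset.mem_insert_of_mem hK')]
  set S₀ : Finset (Fin N) := Finset.univ.filter fun K : Fin N => (K : ℕ) < n with hS₀
  have hcard : S₀.card = n := by rw [hS₀, Fin.card_filter_val_lt]; omega
  have hhm : hi Ψ n * mon Ψ S₀ = mon Ψ S₀ := by
    rw [hi, mon, ← map_mul, ind_mul]
    congr 1
    exact ind_congr fun y => ⟨fun a => a.2, fun a => ⟨hcard ▸ Finset.card_le_card a, a⟩⟩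
  have hm0 := hmon S₀ (fun K hK => (Finset.mem_filter.1 hK).2)
  have hhi : hi Ψ n * w' = w' := by rw [← hm0, ← mul_assoc, hhm]
  have hhi' : star w' * hi Ψ n = star w' := by
    have := congrArg star hhi
    have hs : star (hi Ψ n) = hi Ψ n := (ind_proj Ψ _).isSelfAdjoint.star_eq
    rwa [star_mul, hs] at this
  have e : star w' * O * w = star w' * (hi Ψ n * O * gr Ψ) * w := by
    rw [hgr', ← mul_assoc, ← mul_assoc, hhi', mul_assoc _ (tens N (p n s)) w, p_mul_w]
  refine lt_of_le_of_lt (norm_entry_le _ _ _) (lt_of_le_of_lt ?_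
    (h Ψ ⟨id, 1, p n s, h1, p_proj n s, hΨ⟩))
  rw [e]
  calc _ ≤ ‖star w'‖ * ‖hi Ψ n * O * gr Ψ‖ * ‖w‖ :=
        (norm_mul_le _ _).trans (by gcongr; exact norm_mul_le _ _)
    _ ≤ 1 * ‖hi Ψ n * O * gr Ψ‖ * 1 := by
        gcongr
        · rw [norm_star]; exact norm_w_le _ _
        · exact norm_w_le _ _
    _ = _ := by ring

/-- weights -/
def m (n : ℕ) (i : Fin N) (c : Bool) : ℝ := if (i : ℕ) < n then 1 else if c then 0 else 2

/-- real signs -/
def z (c : Bool) : ℝ := if c then -1 else 1

theorem sum_site (n : ℕ) (i : Fin N) (c c' : Bool) :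
    ∑ b : Bool, star ((if (i : ℕ) < n then V (!b) else E0) c false) *
      (if (i : ℕ) < n then V b else E0) c' false =
      if c = c' then ((m n i c * z c : ℝ) : ℂ) else 0 := by
  have h := r_mul_r
  by_cases hi : (i : ℕ) < n
  · simp only [hi, if_true, Fintype.sum_bool, V, Matrix.of_apply, m, z]
    cases c <;> cases c' <;> simp [star_r, sg, -RCLike.star_def] <;>
      first | linear_combination 2 * h | linear_combination -2 * h
  · simp only [hi, if_false, Fintype.sum_bool, E0, Matrix.of_apply, m, z]
    cases c <;> cases c' <;> simp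
    norm_num

theorem sum_entry (n : ℕ) (O : Mat N) :
    ∑ s : Fin N → Bool,
      (star (tens N (v n (fun i => !s i))) * O * tens N (v n s)) (fun _ => false) (fun _ => false)
      = ∑ σ : Fin N → Bool, ((∏ i, m n i (σ i) * z (σ i) : ℝ) : ℂ) * O σ σ := by
  have key : ∀ σ τ : Fin N → Bool, ∑ s : Fin N → Bool,
      star (tens N (v n (fun i => !s i)) σ (fun _ => false)) * tens N (v n s) τ (fun _ => false) =
      if σ = τ then ((∏ i, m n i (σ i) * z (σ i) : ℝ) : ℂ) else 0 := by
    intro σ τ
    simp only [tens_apply, star_prod, ← Finset.prod_mul_distrib, v]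
    have := Finset.prod_univ_sum (fun _ : Fin N => (Finset.univ : Finset Bool))
      (fun i b => star ((if (i : ℕ) < n then V (!b) else E0) (σ i) false) *
        (if (i : ℕ) < n then V b else E0) (τ i) false)
    rw [Fintype.piFinset_univ] at this
    rw [← this]
    simp only [sum_site]
    split_ifs with hστ
    · subst hστ; simp
    · obtain ⟨i, hi⟩ := Function.ne_iff.1 hστ
      exact Finset.prod_eq_zero (Finset.mem_univ i) (if_neg hi)
  simp only [Matrix.mul_apply, Matrix.star_apply, Finset.sum_mul]
  rw [Finset.sum_comm]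
  refine Finset.sum_congr rfl fun τ _ => ?_
  rw [Finset.sum_comm]
  have : ∀ σ : Fin N → Bool, ∑ s : Fin N → Bool,
      star (tens N (v n (fun i => !s i)) σ (fun _ => false)) * O σ τ *
        tens N (v n s) τ (fun _ => false) =
      (if σ = τ then ((∏ i, m n i (σ i) * z (σ i) : ℝ) : ℂ) else 0) * O σ τ := by
    intro σ
    rw [← key, Finset.sum_mul]
    exact Finset.sum_congr rfl fun s _ => by ring
  simp only [this, ite_mul, zero_mul, Finset.sum_ite_eq', Finset.mem_univ, if_true]

theorem neg_one_pow_bodd (k : ℕ) : (-1 : ℝ) ^ k = z (Nat.bodd k) := by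
  induction k with
  | zero => simp [z]
  | succ k ih => rw [pow_succ, ih, Nat.bodd_succ]; cases Nat.bodd k <;> simp [z]

theorem prod_z {ι : Type} [Fintype ι] (σ : ι → Bool) :
    ∏ i, z (σ i) = z (Nat.bodd (Finset.univ.filter fun i => σ i = true).card) := by
  rw [← neg_one_pow_bodd]
  simp only [z]
  rw [Finset.prod_ite]
  simp

/-- the measured projector -/
noncomputable def a (o : Fin N) : Fin N → M2 := fun i => if i = o then E1 else 1

theorem a_proj (o : Fin N) : IsProj (a o) := by
  intro i; unfold a; split_ifs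
  · exact E1_proj
  · exact IsStarProjection.one _

theorem tens_a (o : Fin N) (σ τ : Fin N → Bool) :
    tens N (a o) σ τ = if σ = τ ∧ σ o = true then 1 else 0 := by
  rw [tens_apply]
  split_ifs with h
  · obtain ⟨rfl, h⟩ := h
    refine Finset.prod_eq_one fun i _ => ?_
    unfold a
    split_ifs with hi
    · subst hi; simp [E1, h]
    · simp
  · by_cases hστ : σ = τ
    · subst hστ
      refine Finset.prod_eq_zero (Finset.mem_univ o) ?_
      have : σ o = false := by simpa using h
      simp [a, E1, this]
    · obtain ⟨i, hi⟩ := Function.ne_iff.1 hστ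
      refine Finset.prod_eq_zero (Finset.mem_univ i) ?_
      unfold a
      split_ifs
      · revert hi; cases σ i <;> cases τ i <;> simp [E1]
      · exact Matrix.one_apply_ne hi

theorem mulVec_basis (U : Mat N) (t σ : Fin N → Bool) : U.mulVec (basisState t) σ = U σ t := by
  simp [Matrix.mulVec, dotProduct, basisState]

theorem O_diag (U : Mat N) (o : Fin N) (t : Fin N → Bool) :
    (star U * tens N (a o) * U) t t = (outcomeProb o true (U.mulVec (basisState t)) : ℝ) := by
  simp only [Matrix.mul_apply, Matrix.star_apply, tens_a, outcomeProb, mulVec_basis]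
  push_cast
  refine Finset.sum_congr rfl fun σ _ => ?_
  rw [Finset.sum_eq_single σ]
  · by_cases h : σ o = true
    · simp [h, Complex.conj_mul']
    · simp [h]
  · intro τ _ hτ; simp [hτ]
  · simp

theorem prob_add (U : unitary (Mat N)) (o : Fin N) (t : Fin N → Bool) :
    outcomeProb o false ((U : Mat N).mulVec (basisState t)) +
      outcomeProb o true ((U : Mat N).mulVec (basisState t)) = 1 := by
  have h0 : star (U : Mat N) * (U : Mat N) = 1 := Unitary.star_mul_self_of_mem U.2
  have h : (star (U : Mat N) * (U : Mat N)) t t = (1 : Mat N) t t := by rw [h0]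
  simp only [Matrix.mul_apply, Matrix.star_apply, Matrix.one_apply_eq, RCLike.star_def,
    Complex.conj_mul'] at h
  have h' : ∑ σ, ‖(U : Mat N) σ t‖ ^ 2 = 1 := by exact_mod_cast h
  rw [← h', outcomeProb, outcomeProb, ← Finset.sum_add_distrib]
  refine Finset.sum_congr rfl fun σ _ => ?_
  rw [mulVec_basis]
  cases σ o <;> simp

end Final

open Final in
theorem finalStmt_of (hC : CritStmt) : FinalStmt := by
  intro n N hn1 hn U o ε h
  by_contra hcon
  push Not at hcon
  set O : Mat N := star (U : Mat N) * tens N (a o) * (U : Mat N) with hO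
  set q : (Fin N → Bool) → ℝ := fun t => outcomeProb o true ((U : Mat N).mulVec (basisState t))
    with hq
  have hlt := entry_lt hC hn O (fun Φ hΦ => h Φ hΦ (a o) (a_proj o))
  have hsum := sum_entry n O
  have hOq : ∀ t, O t t = (q t : ℝ) := fun t => O_diag _ o t
  simp only [hOq, ← Complex.ofReal_mul, ← Complex.ofReal_sum] at hsum
  have hlt' : ‖∑ s : Fin N → Bool, (star (tens N (v n (fun i => !s i))) * O * tens N (v n s))
      (fun _ => false) (fun _ => false)‖ < 2 ^ N * ε := by
    refine lt_of_le_of_lt (norm_sum_le _ _) ?_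
    have := Finset.sum_lt_sum_of_nonempty (Finset.univ_nonempty (α := Fin N → Bool))
      (fun s _ => hlt s)
    simpa using this
  rw [hsum, Complex.norm_real, Real.norm_eq_abs] at hlt'
  have hm0 : ∀ (i : Fin N) c, 0 ≤ m n i c := fun i c => by
    unfold m; split_ifs <;> norm_num
  have s1 : ∑ σ : Fin N → Bool, ∏ i, m n i (σ i) = 2 ^ N := by
    have := Finset.prod_univ_sum (fun _ : Fin N => (Finset.univ : Finset Bool))
      (fun i b => m n i b)
    rw [Fintype.piFinset_univ] at this
    rw [← this]
    have h2 : ∀ i : Fin N, ∑ b : Bool, m n i b = 2 := fun i => by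
      simp only [Fintype.sum_bool, m]; split_ifs <;> simp_all <;> norm_num
    simp only [h2]
    simp
  have s2 : ∑ σ : Fin N → Bool, ∏ i, m n i (σ i) * z (σ i) = 0 := by
    have := Finset.prod_univ_sum (fun _ : Fin N => (Finset.univ : Finset Bool))
      (fun i b => m n i b * z b)
    rw [Fintype.piFinset_univ] at this
    rw [← this]
    refine Finset.prod_eq_zero (Finset.mem_univ (⟨0, by omega⟩ : Fin N)) ?_
    have : (0 : ℕ) < n := hn1
    simp [m, z, this]
  have s3 : ∀ σ : Fin N → Bool, (∏ i, m n i (σ i)) * ε ≤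
      (∏ i, m n i (σ i) * z (σ i)) * (1 / 2 - q σ) := by
    intro σ
    rw [Finset.prod_mul_distrib]
    by_cases hg : ∀ i : Fin N, n ≤ (i : ℕ) → σ i = false
    · rw [mul_assoc]
      refine mul_le_mul_of_nonneg_left ?_ (Finset.prod_nonneg fun i _ => hm0 i _)
      set x : Fin n → Bool := fun j => σ (Fin.castLE hn j) with hx
      have hin : (inputString n x : Fin N → Bool) = σ := by
        funext i
        unfold inputString
        split_ifs with hi
        · rfl
        · exact (hg i (by omega)).symm
      have hcard : (Finset.univ.filter fun i => σ i = true).card =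
          (Finset.univ.filter fun j => x j = true).card := by
        symm
        refine Finset.card_bij (fun j _ => Fin.castLE hn j) (fun j hj => by simpa using hj)
          (fun j _ j' _ hjj => Fin.castLE_injective hn hjj) (fun i hi => ?_)
        have hi' : σ i = true := by simpa using hi
        have hlt : (i : ℕ) < n := by
          by_contra hc
          rw [hg i (by omega)] at hi'
          exact absurd hi' (by simp)
        exact ⟨⟨i, hlt⟩, by simpa [hx] using hi', rfl⟩
      have hpar := hcon x
      rw [hin] at hpar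
      rw [prod_z, hcard]
      change ε ≤ z (parity x) * _
      have hadd := prob_add U o σ
      revert hpar
      cases parity x
      · intro hpar; simp only [z, hq]; norm_num; linarith
      · intro hpar; simp only [z, hq]; norm_num; linarith
    · push Not at hg
      obtain ⟨i, hi, hi'⟩ := hg
      have : ∏ i, m n i (σ i) = 0 := by
        refine Finset.prod_eq_zero (Finset.mem_univ i) ?_
        have h1 : ¬ (i : ℕ) < n := by omega
        have h2 : σ i = true := by simpa using hi'
        simp [m, h1, h2]
      simp [this]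
  have s4 := Finset.sum_le_sum (s := Finset.univ) fun σ _ => s3 σ
  rw [← Finset.sum_mul, s1] at s4
  simp only [mul_sub, Finset.sum_sub_distrib, ← Finset.sum_mul, s2] at s4
  have := neg_abs_le (∑ σ : Fin N → Bool, (∏ i, m n i (σ i) * z (σ i)) * q σ)
  linarith

end Crest.Agent.R344
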