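import Crest.Agent.R344.Defs

/-!
Row 344: well-formed layers of gates are abstract layers.
-/

set_option maxHeartbeats 400000
set_option linter.unusedSectionVars false

namespace Crest.Agent.R344

open Crest.Quantum.Circuit

namespace Layer

section Abstract

variable {ι M A : Type} [Fintype ι] [DecidableEq ι] [Monoid M] [StarMul M] [CStarAlgebra A]

/-- `U` is a product of block reflections and one-site unitaries supported in `B`. -/
def Rep (τ : (ι → M) →⋆* A) (U : A) (B : Finset ι) : Prop :=
  U ∈ unitary A ∧ (∀ b : ι → M, (∀ i ∈ B, b i = 1) → Commute U (τ b)) ∧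
    ∃ (β : ι → ι) (g : ι → M) (φ : ι → M → M), IsProj g ∧
      (∀ i x, IsStarProjection x → IsStarProjection (φ i x)) ∧
      (∀ i ∉ B, β i = i) ∧ (∀ i ∈ B, β i ∈ B) ∧
      ∀ K b, U * τ (res β K b) * star U =
        refl τ β g K * τ (res β K fun i => φ i (b i)) * refl τ β g K

theorem refl_eq_neg (τ : (ι → M) →⋆* A) {β : ι → ι} {g : ι → M} {K : ι} (h : res β K g = 1) :
    refl τ β g K = -1 := by
  rw [refl, h, map_one, two_smul]; abel

theorem conj_of_commute {U X : A} (hU : U ∈ unitary A) (h : Commute U X) :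
    U * X * star U = X := by
  rw [h.eq, mul_assoc, Unitary.mul_star_self_of_mem hU, mul_one]

theorem rep_tau (τ : (ι → M) →⋆* A) (u : ι → M) (hu : ∀ i, u i ∈ unitary M) (B : Finset ι)
    (hB : ∀ i ∉ B, u i = 1) : Rep τ (τ u) B := by
  refine ⟨?_, fun b hb => tau_comm τ fun i => ?_, id, 1, fun i x => u i * x * star (u i),
    fun i => IsStarProjection.one M, fun i x hx => ⟨?_, ?_⟩, fun _ _ => rfl, fun _ h => h,
    fun K b => ?_⟩
  · rw [Unitary.mem_iff, ← map_star, ← map_mul, ← map_mul, ← map_one τ]
    constructor <;> congr 1 <;> funext i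
    · exact Unitary.star_mul_self_of_mem (hu i)
    · exact Unitary.mul_star_self_of_mem (hu i)
  · by_cases h : i ∈ B
    · exact Or.inr (hb i h)
    · exact Or.inl (hB i h)
  · unfold IsIdempotentElem
    calc u i * x * star (u i) * (u i * x * star (u i)) =
        u i * (x * (star (u i) * u i) * x) * star (u i) := by simp only [mul_assoc]
      _ = _ := by rw [Unitary.star_mul_self_of_mem (hu i), mul_one, hx.isIdempotentElem.eq]
  · unfold IsSelfAdjoint
    dsimp only
    rw [star_mul, star_mul, star_star, hx.isSelfAdjoint.star_eq, mul_assoc]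
  · rw [refl_eq_neg τ (by funext i; simp [res]), ← map_star, ← map_mul, ← map_mul]
    simp only [neg_mul, one_mul, mul_neg, mul_one, neg_neg]
    congr 1
    funext i
    simp only [res, Pi.mul_apply, Pi.star_apply]
    split_ifs
    · rfl
    · rw [mul_one, Unitary.mul_star_self_of_mem (hu i)]

theorem star_refl (τ : (ι → M) →⋆* A) {γ : ι → M} (hγ : IsProj γ) :
    star (1 - (2 : ℂ) • τ γ) = 1 - (2 : ℂ) • τ γ := by
  rw [star_sub, star_one, star_smul, (hγ.map τ).isSelfAdjoint.star_eq]; simp

theorem rep_refl (τ : (ι → M) →⋆* A) {γ : ι → M} (hγ : IsProj γ) (B : Finset ι) {t : ι}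
    (ht : t ∈ B) (hB : ∀ i ∉ B, γ i = 1) : Rep τ (1 - (2 : ℂ) • τ γ) B := by
  have hsq : (1 - (2 : ℂ) • τ γ) * (1 - (2 : ℂ) • τ γ) = 1 := by
    have := (hγ.map τ).isIdempotentElem.eq
    simp only [mul_sub, sub_mul, one_mul, mul_one, two_smul, mul_add, add_mul, this]
    abel
  have hU : (1 - (2 : ℂ) • τ γ) ∈ unitary A := by
    rw [Unitary.mem_iff, star_refl τ hγ]; exact ⟨hsq, hsq⟩
  have hc : ∀ b : ι → M, (∀ i ∈ B, b i = 1) → Commute (1 - (2 : ℂ) • τ γ) (τ b) := by
    intro b hb
    refine (Commute.one_left _).sub_left (Commute.smul_left (tau_comm τ fun i => ?_) _)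
    by_cases h : i ∈ B
    · exact Or.inr (hb i h)
    · exact Or.inl (hB i h)
  refine ⟨hU, hc, fun i => if i ∈ B then t else i, γ, fun _ x => x, hγ, fun _ _ h => h,
    fun i hi => if_neg hi, fun i hi => by simpa [hi] using ht, fun K b => ?_⟩
  by_cases hK : K = t
  · subst hK
    have : res (fun i => if i ∈ B then K else i) K γ = γ := by
      funext i
      by_cases h : i ∈ B
      · simp [res, h]
      · simp [res, hB i h]
    rw [refl, this, star_refl τ hγ]
  · rw [refl_eq_neg τ, conj_of_commute hU (hc _ fun i hi => by simp [res, hi, Ne.symm hK])]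
    · simp
    · funext i
      by_cases h : i ∈ B
      · simp [res, h, Ne.symm hK]
      · simp [res, hB i h]

theorem Rep.mul {τ : (ι → M) →⋆* A} {U V : A} {B B' : Finset ι} (hU : Rep τ U B) (hV : Rep τ V B')
    (hd : Disjoint B B') : Rep τ (U * V) (B ∪ B') := by
  obtain ⟨u1, u2, β, g, φ, u3, u4, u5, u6, u7⟩ := hU
  obtain ⟨v1, v2, β', g', φ', v3, v4, v5, v6, v7⟩ := hV
  have hd1 : ∀ i ∈ B, i ∉ B' := fun i hi => Finset.disjoint_left.1 hd hi
  have hd2 : ∀ i ∈ B', i ∉ B := fun i hi => Finset.disjoint_right.1 hd hi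
  refine ⟨mul_mem u1 v1, fun b hb => (u2 b fun i hi => hb i (Finset.mem_union_left _ hi)).mul_left
    (v2 b fun i hi => hb i (Finset.mem_union_right _ hi)),
    fun i => if i ∈ B then β i else β' i, fun i => if i ∈ B then g i else g' i,
    fun i => if i ∈ B then φ i else φ' i, fun i => ?_, fun i x hx => ?_, fun i hi => ?_,
    fun i hi => ?_, fun K b => ?_⟩
  · dsimp only; split_ifs
    · exact u3 i
    · exact v3 i
  · dsimp only; split_ifs
    · exact u4 i x hx
    · exact v4 i x hx
  · rw [Finset.mem_union, not_or] at hi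
    simp [hi.1, v5 i hi.2]
  · dsimp only; split_ifs with h
    · exact Finset.mem_union_left _ (u6 i h)
    · exact Finset.mem_union_right _ (v6 i ((Finset.mem_union.1 hi).resolve_left h))
  · by_cases hK : K ∈ B
    · have h1 : ∀ i ∉ B, β i ≠ K := fun i hi e => hi (by rw [← u5 i hi, e]; exact hK)
      have h2 : ∀ i ∉ B, β' i ≠ K := fun i hi e => by
        by_cases h : i ∈ B'
        · exact hd2 _ (v6 i h) (e ▸ hK)
        · exact hi (by rw [← v5 i h, e]; exact hK)
      have h3 : ∀ c c' : ι → M, (∀ i ∈ B, c i = c' i) →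
          res (fun i => if i ∈ B then β i else β' i) K c = res β K c' := by
        intro c c' h
        funext i
        by_cases hi : i ∈ B
        · simp [res, hi, h i hi]
        · simp [res, hi, h1 i hi, h2 i hi]
      have h4 : V * τ (res β K b) * star V = τ (res β K b) :=
        conj_of_commute v1 (v2 _ fun i hi => by simp [res, h1 i (hd2 i hi)])
      rw [refl, h3 b b fun _ _ => rfl, h3 _ g fun i hi => by simp [hi],
        h3 _ (fun i => φ i (b i)) fun i hi => by simp [hi], ← refl, ← u7, star_mul]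
      conv_rhs => rw [← h4]
      simp only [mul_assoc]
    · have h1 : ∀ i ∈ B, β i ≠ K := fun i hi e => hK (e ▸ u6 i hi)
      have h2 : ∀ i ∈ B, β' i ≠ K := fun i hi e => hK (by rw [← e, v5 i (hd1 i hi)]; exact hi)
      have h3 : ∀ c c' : ι → M, (∀ i ∉ B, c i = c' i) →
          res (fun i => if i ∈ B then β i else β' i) K c = res β' K c' := by
        intro c c' h
        funext i
        by_cases hi : i ∈ B
        · simp [res, hi, h1 i hi, h2 i hi]
        · simp [res, hi, h i hi]
      have h4 : ∀ c, Commute U (τ (res β' K c)) := fun c => u2 _ fun i hi => by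
        simp [res, h2 i hi]
      have h5 : Commute U (refl τ β' g' K) :=
        (Commute.one_right _).sub_right ((h4 _).smul_right _)
      rw [refl, h3 b b fun _ _ => rfl, h3 _ g' fun i hi => by simp [hi],
        h3 _ (fun i => φ' i (b i)) fun i hi => by simp [hi], ← refl,
        ← conj_of_commute u1 ((h5.mul_right (h4 _)).mul_right h5), ← v7, star_mul]
      simp only [mul_assoc]

theorem Rep.toCtr (hC : CritStmt) {τ : (ι → M) →⋆* A} {U : unitary A} {B : Finset ι}
    (h : Rep τ (U : A) B) : ToCtr τ (Unitary.conjStarAlgAut ℂ A U) := by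
  obtain ⟨-, -, β, g, φ, u3, u4, -, -, u7⟩ := h
  intro a ha
  have hp : IsProj fun i => φ i (a i) := fun i => u4 i _ (ha i)
  obtain ⟨Ψ, h1, h2⟩ := hC ι M A τ (Unitary.conjStarAlgAut ℂ A U) β g a _ u3 ha hp fun K => u7 K a
  exact ⟨Ψ, ⟨β, g, _, u3, hp, h1⟩, h2⟩

end Abstract

section Concrete

open scoped Matrix.Norms.L2Operator

variable {N : ℕ}

theorem tens_mulVec (a : Fin N → M2) (t : Fin N) (d : Fin N → Bool → ℂ)
    (h : ∀ j, j ≠ t → a j = Matrix.diagonal (d j)) (ψ : QState N) (σ : Fin N → Bool) :
    (tens N a).mulVec ψ σ = (∏ j ∈ Finset.univ.erase t, d j (σ j)) *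
      ∑ b : Bool, a t (σ t) b * ψ (Function.update σ t b) := by
  simp only [Matrix.mulVec, dotProduct, tens_apply]
  rw [← Finset.sum_subset (Finset.subset_univ (Finset.univ.image (Function.update σ t))),
    Finset.sum_image fun b _ b' _ e => Function.update_injective σ t e, Finset.mul_sum]
  · refine Finset.sum_congr rfl fun b _ => ?_
    rw [← Finset.mul_prod_erase _ _ (Finset.mem_univ t), Function.update_self,
      Finset.prod_congr rfl (g := fun j => d j (σ j)) fun j hj => by
        have hj := Finset.ne_of_mem_erase hj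
        rw [h j hj, Function.update_of_ne hj, Matrix.diagonal_apply_eq]]
    ring
  · intro σ' _ hσ
    have : ∃ j, j ≠ t ∧ σ j ≠ σ' j := by
      by_contra hc
      push Not at hc
      refine hσ (Finset.mem_image.2 ⟨σ' t, Finset.mem_univ _, ?_⟩)
      funext j
      by_cases hj : j = t
      · subst hj; simp
      · rw [Function.update_of_ne hj, hc j hj]
    obtain ⟨j, hj, hj'⟩ := this
    rw [Finset.prod_eq_zero (Finset.mem_univ j), zero_mul]
    rw [h j hj, Matrix.diagonal_apply_ne _ hj']

noncomputable def minus : M2 := Matrix.of fun a b => if a = b then 1 / 2 else -1 / 2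

noncomputable def dd (S : Finset (Fin N)) (j : Fin N) (c : Bool) : ℂ :=
  if j ∈ S then (if c then 1 else 0) else 1

noncomputable def gam (S : Finset (Fin N)) (t : Fin N) : Fin N → M2 :=
  fun j => if j = t then minus else Matrix.diagonal (dd S j)

theorem gam_proj (S : Finset (Fin N)) (t : Fin N) : IsProj (gam S t) := by
  intro j
  unfold gam
  split_ifs
  · refine ⟨?_, ?_⟩
    · ext a b
      cases a <;> cases b <;> simp [minus, Matrix.mul_apply] <;> norm_num
    · ext a b
      cases a <;> cases b <;> simp [minus]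
  · refine ⟨?_, ?_⟩
    · ext a b
      by_cases hj : j ∈ S <;> cases a <;> cases b <;> simp [dd, hj]
    · ext a b
      by_cases hj : j ∈ S <;> cases a <;> cases b <;> simp [dd, hj]

theorem gate_rep (x : Gate N) (hx : x.WellFormed) :
    ∃ U : Mat N, (∀ ψ, x.apply ψ = U.mulVec ψ) ∧ Rep (tens N) U x.support ∧
      Rep (tens N) (star U) x.support := by
  cases x with
  | oneQubit i U =>
    have hu : ∀ j, Function.update (1 : Fin N → M2) i U j ∈ unitary M2 := fun j => by
      by_cases hj : j = i
      · subst hj; rw [Function.update_self]; exact hx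
      · rw [Function.update_of_ne hj]; exact one_mem _
    have hB : ∀ j ∉ ({i} : Finset (Fin N)), Function.update (1 : Fin N → M2) i U j = 1 :=
      fun j hj => Function.update_of_ne (by simpa using hj) _ _
    refine ⟨tens N (Function.update 1 i U), fun ψ => ?_, rep_tau _ _ hu _ hB, ?_⟩
    · funext σ
      rw [tens_mulVec _ i (fun _ _ => 1) fun j hj => by simp [Function.update_of_ne hj]]
      simp [Gate.apply]
    · rw [← map_star]
      exact rep_tau _ _ (fun j => Unitary.star_mem (hu j)) _ fun j hj => by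
        show star (Function.update (1 : Fin N → M2) i U j) = 1
        rw [hB j hj, star_one]
  | toffoli S t =>
    have ht : t ∉ S := hx
    have hr : Rep (tens N) (1 - (2 : ℂ) • tens N (gam S t)) (insert t S) :=
      rep_refl _ (gam_proj S t) _ (Finset.mem_insert_self _ _) fun j hj => by
        rw [Finset.mem_insert, not_or] at hj
        simp only [gam, hj.1, if_false]
        rw [← Matrix.diagonal_one]
        congr 1
        funext c
        simp [dd, hj.2]
    refine ⟨1 - (2 : ℂ) • tens N (gam S t), fun ψ => ?_, hr, ?_⟩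
    · funext σ
      rw [Matrix.sub_mulVec, Matrix.one_mulVec, Matrix.smul_mulVec, Pi.sub_apply, Pi.smul_apply,
        tens_mulVec _ t (dd S) fun j hj => by simp [gam, hj]]
      simp only [Gate.apply, gam, if_true]
      by_cases hc : ∀ i ∈ S, σ i = true
      · rw [Finset.prod_eq_one fun j _ => by
          by_cases hj : j ∈ S
          · simp [dd, hc j hj]
          · simp [dd, hj]]
        rw [decide_eq_true hc]
        have e := Function.update_eq_self t σ
        cases hσ : σ t <;> rw [hσ] at e <;> simp [minus, e] <;> ring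
      · rw [decide_eq_false hc]
        push Not at hc
        obtain ⟨j, hj, hj'⟩ := hc
        have hjt : j ≠ t := fun e => ht (e ▸ hj)
        have hz : dd S j (σ j) = 0 := by simp [dd, hj, hj']
        rw [Finset.prod_eq_zero (Finset.mem_erase.2 ⟨hjt, Finset.mem_univ _⟩) hz]
        simp
    · rw [star_refl _ (gam_proj S t)]; exact hr

theorem layer_rep (L : List (Gate N)) (hL : LayerWF L) :
    ∃ (U : Mat N) (B : Finset (Fin N)), (∀ i ∈ B, ∃ x ∈ L, i ∈ x.support) ∧
      (∀ ψ, applyLayer L ψ = U.mulVec ψ) ∧ Rep (tens N) U B ∧ Rep (tens N) (star U) B := by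
  induction L with
  | nil =>
    have : Rep (tens N) 1 ∅ := by
      rw [← map_one (tens N)]
      exact rep_tau _ _ (fun _ => one_mem _) _ fun _ _ => rfl
    exact ⟨1, ∅, by simp, fun ψ => by simp [applyLayer], this, by rwa [star_one]⟩
  | cons x L ih =>
    obtain ⟨h1, h2⟩ := hL
    rw [List.pairwise_cons] at h2
    obtain ⟨U, B, u1, u2, u3, u4⟩ := ih ⟨fun g hg => h1 g (List.mem_cons_of_mem _ hg), h2.2⟩
    obtain ⟨V, v1, v2, v3⟩ := gate_rep x (h1 x List.mem_cons_self)
    have hd : Disjoint B x.support := Finset.disjoint_left.2 fun i hi hi' => by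
      obtain ⟨y, hy, hy'⟩ := u1 i hi
      exact Finset.disjoint_left.1 (h2.1 y hy) hi' hy'
    refine ⟨U * V, B ∪ x.support, fun i hi => ?_, fun ψ => ?_, u3.mul v2 hd, ?_⟩
    · rcases Finset.mem_union.1 hi with h | h
      · obtain ⟨y, hy, hy'⟩ := u1 i h
        exact ⟨y, List.mem_cons_of_mem _ hy, hy'⟩
      · exact ⟨x, List.mem_cons_self, h⟩
    · rw [← Matrix.mulVec_mulVec, ← v1, ← u2]; rfl
    · rw [star_mul, Finset.union_comm]; exact v3.mul u4 hd.symm

end Concrete

end Layer

open scoped Matrix.Norms.L2Operator in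
theorem layerStmt_of (h : CritStmt) : LayerStmt := by
  intro N L hL
  obtain ⟨U, B, -, u2, u3, u4⟩ := Layer.layer_rep L hL
  refine ⟨⟨U, u3.1⟩, u2, Layer.Rep.toCtr h (B := B) u3, ?_⟩
  rw [← map_inv]
  exact Layer.Rep.toCtr h (B := B) u4

end Crest.Agent.R344
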