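import Crest.Agent.R344.Defs

/-! Row 344: induction on the depth and the reduction of the statement to the parts. -/

set_option maxHeartbeats 400000

namespace Crest.Agent.R344

open Crest.Quantum.Circuit

namespace MainAux

variable {J A : Type} [Fintype J] [DecidableEq J] [CStarAlgebra A]

theorem monB_swap {Φ Ψ : Spec J A} {α : A ≃⋆ₐ[ℂ] A} {E : ℕ} (h : MonB Ψ (Φ.map α⁻¹) E) :
    MonB (Ψ.map α) Φ E := by
  intro S k
  have h1 := h S k
  have e : hi (Ψ.map α) (k * E) * mon Φ S * gr (Ψ.map α) =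
      α (hi Ψ (k * E) * mon (Φ.map α⁻¹) S * gr Ψ) := by
    simp only [hi, mon, gr, Spec.map_apply, map_mul]
    congr 2
    exact (α.apply_symm_apply _).symm
  rw [e, StarAlgEquiv.norm_map]
  exact h1

end MainAux

theorem mainStmt_of (hC : CoreStmt) (hB : BaseStmt) (hM : MonStmt) (hA : ArithStmt) :
    MainStmt := by
  intro t
  induction t with
  | zero =>
    intro b
    refine ⟨2 ^ b, fun N hN => ⟨2, by norm_num, hN, ?_⟩⟩
    intro ι M A _ _ _ _ _ τ _ l hl _
    rw [List.length_eq_zero_iff.1 hl, List.prod_nil]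
    exact hB ι M A τ
  | succ t ih =>
    intro b
    obtain ⟨a, b', N₀, h0⟩ := hA b
    obtain ⟨N₁, h1⟩ := ih b'
    refine ⟨max N₀ N₁, fun N hN => ?_⟩
    obtain ⟨ℓ, R, hℓ, hR, h2⟩ := h0 N (le_of_max_le_left hN)
    obtain ⟨D, hD1, hDb, h3⟩ := h1 N (le_of_max_le_right hN)
    have hR1 : 1 ≤ R := by
      rcases Nat.eq_zero_or_pos R with h | h
      · subst h; simp at hR
      · exact h
    have hℓ1 : 1 ≤ ℓ := by
      rcases Nat.eq_zero_or_pos ℓ with h | h
      · subst h; omega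
      · exact h
    have hE : 1 ≤ 21 * ℓ ^ 2 * D ^ 3 := Nat.succ_le_of_lt (by positivity)
    refine ⟨_, Nat.succ_le_of_lt (by positivity), h2 D hDb, ?_⟩
    intro ι M A _ _ _ _ _ τ hι l hl hlay
    obtain ⟨l', lam, rfl⟩ : ∃ l' lam, l = l' ++ [lam] := by
      rcases List.eq_nil_or_concat l with h | ⟨l', lam, h⟩
      · subst h; simp at hl
      · exact ⟨l', lam, by simpa using h⟩
    have hl' : l'.length = t := by simpa using hl
    have hα : Hyp τ l'.prod D := h3 ι M A τ hι l' hl' fun α hα => hlay α (by simp [hα])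
    have hα' : Hyp τ (l'.prod)⁻¹ D := by
      rw [List.prod_inv_reverse]
      refine h3 ι M A τ hι _ (by simpa using hl') fun α hα => ?_
      simp only [List.mem_reverse, List.mem_map] at hα
      obtain ⟨γ, hγ, rfl⟩ := hα
      have := hlay γ (by simp [hγ])
      exact ⟨this.2, by rw [inv_inv]; exact this.1⟩
    intro Φ hΦ p hp
    obtain ⟨Ψ, hΨ, e⟩ := (hlay lam (by simp)).1 p hp
    have e2 : (l' ++ [lam]).prod (τ p) = gr (Ψ.map l'.prod) := by
      rw [List.prod_append, List.prod_singleton, gr, Spec.map_apply, ← gr, ← e]; rfl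
    rw [e2]
    exact hC ι A Φ _ N ℓ _ R a hι hℓ hE hR (hM ι M A τ _ N ℓ D hι hℓ hD1 hα Φ Ψ hΦ hΨ)
      (MainAux.monB_swap (hM ι M A τ _ N ℓ D hι hℓ hD1 hα' Ψ Φ hΨ hΦ))

section Concrete

open scoped Matrix.Norms.L2Operator

theorem circuit_of (hL : LayerStmt) {N : ℕ} (C : List (List (Gate N))) (hC : CircuitWF C) :
    ∃ (U : unitary (Mat N)) (l : List (Mat N ≃⋆ₐ[ℂ] Mat N)), l.length = C.length ∧
      (∀ α ∈ l, IsLayer (tens N) α) ∧
      (∀ ψ : QState N, runCircuit C ψ = (U : Mat N).mulVec ψ) ∧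
      ∀ X : Mat N, l.prod X = star (U : Mat N) * X * U := by
  induction C with
  | nil => exact ⟨1, [], rfl, by simp, fun ψ => by simp [runCircuit], fun X => by simp⟩
  | cons L C ih =>
    obtain ⟨U, l, h1, h2, h3, h4⟩ := ih fun L' hL' => hC L' (List.mem_cons_of_mem _ hL')
    obtain ⟨V, h5, h6⟩ := hL N L (hC L List.mem_cons_self)
    refine ⟨U * V, (Unitary.conjStarAlgAut ℂ (Mat N) V)⁻¹ :: l, by simp [h1], ?_, ?_, ?_⟩
    · intro α hα
      rcases List.mem_cons.1 hα with rfl | hα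
      · exact ⟨h6.2, by rw [inv_inv]; exact h6.1⟩
      · exact h2 α hα
    · intro ψ
      have : runCircuit (L :: C) ψ = runCircuit C (applyLayer L ψ) := rfl
      rw [this, h3, h5, Matrix.mulVec_mulVec]; rfl
    · intro X
      rw [List.prod_cons]
      change (Unitary.conjStarAlgAut ℂ (Mat N) V).symm (l.prod X) = _
      rw [Unitary.conjStarAlgAut_symm_apply, h4]
      simp [mul_assoc]

theorem final_of (hM : MainStmt) (hL : LayerStmt) (hF : FinalStmt) (d c : ℕ) (ε : ℝ)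
    (hε : 0 < ε) :
    ∃ n₀ : ℕ, ∀ n ≥ n₀, ∀ N : ℕ, n ≤ N → N ≤ n ^ c →
      ∀ C : List (List (Gate N)), CircuitWF C → C.length ≤ d →
        ∀ o : Fin N, ∃ x : Fin n → Bool,
          outcomeProb o (parity x) (runCircuit C (basisState (inputString n x))) < 1 / 2 + ε := by
  choose f hf using fun t => hM t (2 * c)
  obtain ⟨k, hk⟩ := exists_pow_lt_of_lt_one hε (by norm_num : (1 / 2 : ℝ) < 1)
  refine ⟨max (max 2 (k ^ 2)) ((Finset.range (d + 1)).sup f), ?_⟩
  intro n hn N hnN hNc C hC hd o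
  have hn2 : 2 ≤ n := le_of_max_le_left (le_of_max_le_left hn)
  have hnk : k ^ 2 ≤ n := le_of_max_le_right (le_of_max_le_left hn)
  have hnf : f C.length ≤ N :=
    ((Finset.le_sup (f := f) (Finset.mem_range.2 (by omega))).trans
      (le_of_max_le_right hn)).trans hnN
  have hc : c ≠ 0 := by
    rintro rfl
    rw [pow_zero] at hNc; omega
  obtain ⟨D, -, hD, h1⟩ := hf C.length N hnf
  obtain ⟨U, l, h2, h3, h4, h5⟩ := circuit_of hL C hC
  have h6 := h1 (Fin N) M2 (Mat N) (tens N) (by simp) l h2 h3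
  have hD2 : D ^ 2 ≤ n := by
    have : (D ^ 2) ^ c ≤ n ^ c := by rw [← pow_mul]; exact hD.trans hNc
    exact (Nat.pow_le_pow_iff_left hc).1 this
  have hkD : k * D ≤ n := by
    have : (k * D) ^ 2 ≤ n ^ 2 := by
      rw [mul_pow, sq n]; exact Nat.mul_le_mul hnk hD2
    exact (Nat.pow_le_pow_iff_left two_ne_zero).1 this
  obtain ⟨x, hx⟩ := hF n N (by omega) hnN U o ε fun Φ hΦ a ha => by
    have h7 := h6 Φ hΦ a ha k
    rw [h5] at h7
    have h8 := hi_mono Φ hkD (star (U : Mat N) * tens N a * (U : Mat N) * gr Φ)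
    rw [← mul_assoc, ← mul_assoc (hi Φ (k * D))] at h8
    exact (h8.trans h7).trans_lt hk
  exact ⟨x, by rw [h4]; exact hx⟩

end Concrete

end Crest.Agent.R344
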