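import Crest.Agent.R344.Defs

/-!
Row 344: from tails of product projectors to monomial bounds (`monStmt`).
-/

set_option maxHeartbeats 400000

namespace Crest.Agent.R344

namespace Mon

section Abstract

variable {J A : Type} [Fintype J] [DecidableEq J] [CStarAlgebra A]

/-- precomposition with `y ↦ y \ z` -/
def pre (z : Finset J) : (Finset J → ℂ) →⋆ₐ[ℂ] (Finset J → ℂ) where
  toFun f := fun y => f (y \ z)
  map_one' := rfl
  map_mul' _ _ := rfl
  map_zero' := rfl
  map_add' _ _ := rfl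
  commutes' _ := rfl
  map_star' _ := rfl

/-- the sub-counter that forgets the blocks in `z` -/
noncomputable def sub (Φ : Spec J A) (z : Finset J) : Spec J A := Φ.comp (pre z)

theorem sub_ind (Φ : Spec J A) (z : Finset J) (q : Finset J → Prop) [DecidablePred q] :
    sub Φ z (ind q) = Φ (ind fun y => q (y \ z)) := rfl

theorem nn_sub_mem (Φ : Spec J A) {z : Finset J} {K : J} (h : K ∈ z) : nn (sub Φ z) K = 0 := by
  rw [nn, sub_ind]
  have : (ind fun y : Finset J => K ∈ y \ z) = 0 := by funext y; simp [ind, h]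
  rw [this, map_zero]

theorem nn_sub_not_mem (Φ : Spec J A) {z : Finset J} {K : J} (h : K ∉ z) :
    nn (sub Φ z) K = nn Φ K := by
  rw [nn, sub_ind, nn]; congr 1; exact ind_congr fun y => by simp [h]

/-- projector onto `W < h` -/
noncomputable def lo (Φ : Spec J A) (h : ℕ) : A := Φ (ind fun y => y.card < h)

theorem hi_add_lo (Φ : Spec J A) (h : ℕ) : hi Φ h + lo Φ h = 1 := by
  rw [hi, lo, ← map_add, ← map_one Φ]; congr 1; funext y
  by_cases hy : h ≤ y.card
  · simp [ind, hy, not_lt.2 hy]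
  · simp [ind, hy, not_le.1 hy]

theorem lo_eq_sum (Φ : Spec J A) (h : ℕ) :
    lo Φ h = ∑ z ∈ (Finset.univ.filter fun z : Finset J => z.card < h), Φ (ind fun y => y = z) := by
  rw [lo, ← map_sum]; congr 1; funext y
  rw [Finset.sum_apply]
  by_cases hy : y.card < h
  · rw [Finset.sum_eq_single y]
    · simp [ind, hy]
    · intro b _ hb; simp [ind, Ne.symm hb]
    · intro hb; simp [hy] at hb
  · rw [Finset.sum_eq_zero]
    · simp [ind, hy]
    · intro z hz
      have : y ≠ z := fun e => hy (by rw [e]; simpa using hz)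
      simp [ind, this]

theorem card_small (h : ℕ) :
    (Finset.univ.filter fun z : Finset J => z.card < h).card ≤ (Fintype.card J + 1) ^ h := by
  have h1 : (Finset.univ.filter fun z : Finset J => z.card < h) ⊆
      (Finset.range (h + 1)).biUnion fun i => Finset.powersetCard i Finset.univ := by
    intro z hz
    simp only [Finset.mem_filter, Finset.mem_univ, true_and] at hz
    simp only [Finset.mem_biUnion, Finset.mem_range, Finset.mem_powersetCard, Finset.subset_univ,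
      true_and]
    exact ⟨z.card, by omega, rfl⟩
  refine (Finset.card_le_card h1).trans (Finset.card_biUnion_le.trans ?_)
  rw [add_pow]
  refine Finset.sum_le_sum fun i hi => ?_
  rw [Finset.card_powersetCard, Finset.card_univ, one_pow, mul_one]
  have h2 : 1 ≤ h.choose i := Nat.choose_pos (by simpa [Nat.lt_succ_iff] using hi)
  calc (Fintype.card J).choose i ≤ Fintype.card J ^ i := Nat.choose_le_pow _ _
    _ ≤ Fintype.card J ^ i * h.choose i := Nat.le_mul_of_pos_right _ h2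
    _ = _ := by simp

theorem hi_norm_le (Φ : Spec J A) (u : ℕ) : ‖hi Φ u‖ ≤ 1 := ind_norm_le Φ _

theorem gr_norm_le (Φ : Spec J A) : ‖gr Φ‖ ≤ 1 := ind_norm_le Φ _

/-- tails with respect to all sub-counters give a bound between `W < h` and `W ≥ k D + h` -/
theorem hi_lo_le (Φ : Spec J A) {X : A} {D : ℕ} (hX : ∀ z, Tail (sub Φ z) X D) (k h : ℕ) :
    ‖hi Φ (k * D + h) * X * lo Φ h‖ ≤ ((Fintype.card J + 1) ^ h : ℕ) * (1 / 2 : ℝ) ^ k := by
  rw [lo_eq_sum, Finset.mul_sum]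
  refine (norm_sum_le _ _).trans ?_
  refine (Finset.sum_le_card_nsmul _ _ ((1 / 2 : ℝ) ^ k) fun z hz => ?_).trans ?_
  · simp only [Finset.mem_filter, Finset.mem_univ, true_and] at hz
    refine le_trans ?_ (hX z k)
    have e1 : hi (sub Φ z) (k * D) = Φ (ind fun y => k * D ≤ (y \ z).card) := rfl
    have e2 : gr (sub Φ z) = Φ (ind fun y => y \ z = ∅) := rfl
    rw [e1, e2]
    refine (norm_mul_ind_le Φ (q := fun y => y \ z = ∅) (fun y hy => by simp [hy]) _).trans ?_
    rw [mul_assoc, mul_assoc]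
    refine norm_ind_mul_le Φ (fun y hy => ?_) _
    have := Finset.le_card_sdiff z y
    omega
  · rw [nsmul_eq_mul]
    exact mul_le_mul_of_nonneg_right (by exact_mod_cast card_small h) (by positivity)

theorem hi_lo_le' (Φ : Spec J A) {X : A} {D ℓ : ℕ} (hX : ∀ z, Tail (sub Φ z) X D)
    (hl : Fintype.card J + 1 ≤ 2 ^ ℓ) (k h : ℕ) :
    ‖hi Φ ((ℓ * h + k) * D + h) * X * lo Φ h‖ ≤ (1 / 2 : ℝ) ^ k := by
  refine (hi_lo_le Φ hX _ h).trans ?_
  have h1 : (((Fintype.card J + 1) ^ h : ℕ) : ℝ) ≤ 2 ^ (ℓ * h) := by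
    rw [pow_mul]; exact_mod_cast Nat.pow_le_pow_left hl h
  calc _ ≤ (2 : ℝ) ^ (ℓ * h) * (1 / 2 : ℝ) ^ (ℓ * h + k) :=
        mul_le_mul_of_nonneg_right h1 (by positivity)
    _ = (1 / 2 : ℝ) ^ k := by
        rw [pow_add, ← mul_assoc, ← mul_pow]; norm_num

theorem norm_mul_le_left {X Y : A} {b : ℝ} (hX : ‖X‖ ≤ b) (hY : ‖Y‖ ≤ 1) : ‖X * Y‖ ≤ b :=
  (norm_mul_le _ _).trans ((mul_le_of_le_one_right (norm_nonneg _) hY).trans hX)

theorem norm_mul_le_right {X Y : A} {b : ℝ} (hX : ‖X‖ ≤ 1) (hY : ‖Y‖ ≤ b) : ‖X * Y‖ ≤ b :=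
  (norm_mul_le _ _).trans ((mul_le_of_le_one_left (norm_nonneg _) hX).trans hY)

/-- tails for a product of three contractions -/
theorem triple (Φ : Spec J A) {X Y Z : A} {D ℓ : ℕ} (hD : 1 ≤ D)
    (hl : Fintype.card J + 1 ≤ 2 ^ ℓ) (hl1 : 1 ≤ ℓ)
    (hX : ∀ z, Tail (sub Φ z) X D) (hY : ∀ z, Tail (sub Φ z) Y D) (hZ : Tail Φ Z D)
    (nX : ‖X‖ ≤ 1) (nY : ‖Y‖ ≤ 1) (nZ : ‖Z‖ ≤ 1) :
    Tail Φ (X * Y * Z) (21 * ℓ ^ 2 * D ^ 3) := by
  intro k
  rcases Nat.eq_zero_or_pos k with rfl | hk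
  · rw [pow_zero]
    exact norm_mul_le_left (norm_mul_le_left (hi_norm_le Φ _)
      (norm_mul_le_left (norm_mul_le_left nX nY) nZ)) (gr_norm_le Φ)
  set h2 := 3 * k * D with hh2
  set h1 := (ℓ * h2 + 3 * k) * D + h2 with hh1
  set u := (ℓ * h1 + 3 * k) * D + h1 with hu
  have hu' : u ≤ k * (21 * ℓ ^ 2 * D ^ 3) := by
    have a1 : D ≤ ℓ * D ^ 2 := by nlinarith
    have b1 : h1 ≤ 9 * k * ℓ * D ^ 2 := by
      have : h1 = 3 * k * (ℓ * D ^ 2) + 6 * k * D := by rw [hh1, hh2]; ring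
      have h3 : 6 * k * D ≤ 6 * k * (ℓ * D ^ 2) := Nat.mul_le_mul_left _ a1
      nlinarith
    have a2 : ℓ * D ^ 2 ≤ ℓ ^ 2 * D ^ 3 := by
      have : ℓ ^ 2 * D ^ 3 = (ℓ * D ^ 2) * (ℓ * D) := by ring
      rw [this]; exact Nat.le_mul_of_pos_right _ (Nat.mul_pos hl1 hD)
    have c1 : ℓ * h1 * D ≤ ℓ * (9 * k * ℓ * D ^ 2) * D :=
      Nat.mul_le_mul_right _ (Nat.mul_le_mul_left _ b1)
    have c2 : 3 * k * D ≤ 3 * k * (ℓ ^ 2 * D ^ 3) := Nat.mul_le_mul_left _ (a1.trans a2)
    have c3 : 9 * k * (ℓ * D ^ 2) ≤ 9 * k * (ℓ ^ 2 * D ^ 3) := Nat.mul_le_mul_left _ a2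
    have : u = ℓ * h1 * D + 3 * k * D + h1 := by rw [hu]; ring
    nlinarith
  have e0 := hi_mono Φ hu' (X * Y * Z * gr Φ)
  rw [← mul_assoc (hi Φ u), ← mul_assoc (hi Φ _)] at e0
  refine e0.trans ?_
  have t1 : ‖hi Φ u * X * lo Φ h1‖ ≤ (1 / 2 : ℝ) ^ (3 * k) := hi_lo_le' Φ hX hl _ _
  have t2 : ‖hi Φ h1 * Y * lo Φ h2‖ ≤ (1 / 2 : ℝ) ^ (3 * k) := hi_lo_le' Φ hY hl _ _
  have t3 : ‖hi Φ h2 * Z * gr Φ‖ ≤ (1 / 2 : ℝ) ^ (3 * k) := hZ _
  have split : hi Φ u * (X * Y * Z) * gr Φ =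
      hi Φ u * X * lo Φ h1 * (Y * Z * gr Φ) +
      hi Φ u * X * (hi Φ h1 * Y * lo Φ h2) * (Z * gr Φ) +
      hi Φ u * X * hi Φ h1 * Y * (hi Φ h2 * Z * gr Φ) := by
    have e1 : lo Φ h1 = 1 - hi Φ h1 := by rw [← hi_add_lo Φ h1]; abel
    have e2 : lo Φ h2 = 1 - hi Φ h2 := by rw [← hi_add_lo Φ h2]; abel
    rw [e1, e2]; noncomm_ring
  rw [split]
  have s1 : ‖hi Φ u * X * lo Φ h1 * (Y * Z * gr Φ)‖ ≤ (1 / 2 : ℝ) ^ (3 * k) :=
    norm_mul_le_left t1 (norm_mul_le_left (norm_mul_le_left nY nZ) (gr_norm_le Φ))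
  have s2 : ‖hi Φ u * X * (hi Φ h1 * Y * lo Φ h2) * (Z * gr Φ)‖ ≤ (1 / 2 : ℝ) ^ (3 * k) :=
    norm_mul_le_left (norm_mul_le_right (norm_mul_le_left (hi_norm_le Φ _) nX) t2)
      (norm_mul_le_left nZ (gr_norm_le Φ))
  have s3 : ‖hi Φ u * X * hi Φ h1 * Y * (hi Φ h2 * Z * gr Φ)‖ ≤ (1 / 2 : ℝ) ^ (3 * k) :=
    norm_mul_le_right (norm_mul_le_left (norm_mul_le_left
      (norm_mul_le_left (hi_norm_le Φ _) nX) (hi_norm_le Φ _)) nY) t3
  have s4 : (1 / 2 : ℝ) ^ (3 * k) ≤ (1 / 4) * (1 / 2 : ℝ) ^ k := by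
    have : 3 * k = k + 2 * k := by ring
    rw [this, pow_add, mul_comm]
    refine mul_le_mul_of_nonneg_right ?_ (by positivity)
    calc (1 / 2 : ℝ) ^ (2 * k) ≤ (1 / 2 : ℝ) ^ 2 :=
          pow_le_pow_of_le_one (by norm_num) (by norm_num) (by omega)
      _ = 1 / 4 := by norm_num
  have s5 : (0 : ℝ) ≤ (1 / 2 : ℝ) ^ k := by positivity
  refine (norm_add₃_le).trans ?_
  linarith

end Abstract

section Counters

variable {ι M A : Type} [Fintype ι] [DecidableEq ι] [Monoid M] [StarMul M] [CStarAlgebra A]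

omit [Fintype ι] in
theorem refl_mul_self (τ : (ι → M) →⋆* A) (β : ι → ι) {g : ι → M} (hg : IsProj g) (K : ι) :
    refl τ β g K * refl τ β g K = 1 := by
  have h : τ (res β K g) * τ (res β K g) = τ (res β K g) := ((hg.res β K).map τ).1
  unfold refl
  simp only [mul_sub, sub_mul, one_mul, mul_one, smul_mul_assoc, mul_smul_comm, h]
  module

theorem isCtr_sub {τ : (ι → M) →⋆* A} {Φ : Spec ι A} (h : IsCtr τ Φ) (z : Finset ι) :
    IsCtr τ (sub Φ z) := by
  obtain ⟨β, g, p, hg, hp, hK⟩ := h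
  refine ⟨β, g, fun i => if β i ∈ z then 1 else p i, hg, fun i => ?_, fun K => ?_⟩
  · dsimp only; split_ifs
    · exact IsStarProjection.one M
    · exact hp i
  · by_cases hz : K ∈ z
    · have : res β K (fun i => if β i ∈ z then 1 else p i) = 1 := by
        funext i; by_cases hi : β i = K <;> simp [res, hi, hz]
      rw [nn_sub_mem Φ hz, cn, this, map_one, mul_one, refl_mul_self τ β hg, sub_self]
    · have : res β K (fun i => if β i ∈ z then 1 else p i) = res β K p := by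
        funext i; by_cases hi : β i = K <;> simp [res, hi, hz]
      rw [nn_sub_not_mem Φ hz, hK, cn, cn, this]

omit [Fintype ι] in
theorem isProj_res_mul {β : ι → ι} {K : ι} {g a : ι → M} (hg : IsProj g) (ha : IsProj a)
    (h : ∀ i, β i = K → a i = 1) : IsProj (res β K g * a) := by
  intro i
  by_cases hi : β i = K
  · simpa [res, hi, h i hi] using hg i
  · simpa [res, hi] using ha i

omit [Fintype ι] in
theorem cn_mul (τ : (ι → M) →⋆* A) (β : ι → ι) (g p : ι → M) (K : ι) {a b c : ι → M}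
    (ha : ∀ i, β i = K → a i = 1) (hb : ∀ i, β i = K → b i = 1) :
    cn τ β g p K * (τ a * τ b * τ c) =
      τ a * τ b * τ c - τ a * τ (res β K p * b) * τ c
        + (2 : ℂ) • (τ (res β K g * a) * τ (res β K p * b) * τ c)
        + (2 : ℂ) • (τ a * τ (res β K p * b) * τ (res β K g * c))
        - (4 : ℂ) • (τ (res β K g * a) * τ (res β K p * b) * τ (res β K g * c)) := by
  have comm : ∀ (q d : ι → M), (∀ i, β i = K → d i = 1) → τ (res β K q) * τ d = τ d * τ (res β K q) :=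
    fun q d hd => (tau_comm τ fun i => by
      by_cases hi : β i = K
      · exact Or.inr (hd i hi)
      · exact Or.inl (by simp [res, hi])).eq
  have hGa := comm g a ha
  have hGb := comm g b hb
  have hPa := comm p a ha
  unfold cn refl
  simp only [map_mul]
  set G := τ (res β K g)
  set P := τ (res β K p)
  set x := τ a
  set y := τ b
  set w := τ c
  have e1 : P * (x * y * w) = x * (P * y) * w := by
    rw [← mul_assoc, ← mul_assoc, hPa]; noncomm_ring
  have e2 : G * (x * y * w) = x * y * (G * w) := by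
    rw [← mul_assoc, ← mul_assoc, hGa, mul_assoc x, hGb]; noncomm_ring
  have e3 : P * (x * y * (G * w)) = x * (P * y) * (G * w) := by
    rw [← mul_assoc P, ← mul_assoc P, hPa]; noncomm_ring
  have e4 : (1 - (2 : ℂ) • G) * P * (1 - (2 : ℂ) • G) * (x * y * w) =
      P * (x * y * w) - (2 : ℂ) • (G * (P * (x * y * w))) - (2 : ℂ) • (P * (G * (x * y * w)))
        + (4 : ℂ) • (G * (P * (G * (x * y * w)))) := by
    simp only [mul_sub, sub_mul, one_mul, mul_one, smul_mul_assoc, mul_smul_comm, mul_assoc]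
    module
  rw [sub_mul, one_mul, e4, e2, e3, e1]
  simp only [mul_assoc]
  module

end Counters

end Mon

open Mon in
theorem monStmt : MonStmt := by
  intro ι M A _ _ _ _ _ τ α N ℓ D hN hl hD hyp Φ Ψ hΦ hΨ
  have hl' : Fintype.card ι + 1 ≤ 2 ^ ℓ := by omega
  have hl1 : 1 ≤ ℓ := by
    rcases Nat.eq_zero_or_pos ℓ with rfl | h
    · omega
    · exact h
  have nrm : ∀ a : ι → M, IsProj a → ‖α (τ a)‖ ≤ 1 := fun a ha =>
    ((ha.map τ).map α).norm_le
  have tri : ∀ a b c : ι → M, IsProj a → IsProj b → IsProj c →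
      Tail Φ (α (τ a * τ b * τ c)) (21 * ℓ ^ 2 * D ^ 3) := fun a b c ha hb hc => by
    rw [map_mul, map_mul]
    exact triple Φ hD hl' hl1 (fun z => hyp _ (isCtr_sub hΦ z) a ha)
      (fun z => hyp _ (isCtr_sub hΦ z) b hb) (hyp _ hΦ c hc) (nrm a ha) (nrm b hb) (nrm c hc)
  obtain ⟨β, g, p, hg, hp, hK⟩ := hΨ
  intro S k
  set E := 21 * ℓ ^ 2 * D ^ 3
  have key : ∀ (S : Finset ι) (a b c : ι → M), IsProj a → IsProj b → IsProj c →
      (∀ i, β i ∈ S → a i = 1) → (∀ i, β i ∈ S → b i = 1) → (∀ i, β i ∈ S → c i = 1) →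
      ‖hi Φ (k * E) * α (mon Ψ S * (τ a * τ b * τ c)) * gr Φ‖ ≤
        10 ^ S.card * (1 / 2 : ℝ) ^ k := by
    intro S
    induction S using Finset.induction_on with
    | empty =>
      intro a b c ha hb hc _ _ _
      rw [mon_empty, one_mul, Finset.card_empty, pow_zero, one_mul]
      exact tri a b c ha hb hc k
    | insert K S hKS ih =>
      intro a b c ha hb hc ha1 hb1 hc1
      have aK : ∀ i, β i = K → a i = 1 := fun i hi => ha1 i (by simp [hi])
      have bK : ∀ i, β i = K → b i = 1 := fun i hi => hb1 i (by simp [hi])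
      have cK : ∀ i, β i = K → c i = 1 := fun i hi => hc1 i (by simp [hi])
      have aS : ∀ i, β i ∈ S → a i = 1 := fun i hi => ha1 i (by simp [hi])
      have bS : ∀ i, β i ∈ S → b i = 1 := fun i hi => hb1 i (by simp [hi])
      have cS : ∀ i, β i ∈ S → c i = 1 := fun i hi => hc1 i (by simp [hi])
      have rS : ∀ q d : ι → M, (∀ i, β i ∈ S → d i = 1) →
          ∀ i, β i ∈ S → (res β K q * d) i = 1 := fun q d hd i hi => by
        have : β i ≠ K := fun e => hKS (e ▸ hi)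
        simp [res, this, hd i hi]
      have ga := isProj_res_mul hg ha aK
      have pb := isProj_res_mul hp hb bK
      have gc := isProj_res_mul hg hc cK
      have i1 := ih a b c ha hb hc aS bS cS
      have i2 := ih a _ c ha pb hc aS (rS p b bS) cS
      have i3 := ih _ _ c ga pb hc (rS g a aS) (rS p b bS) cS
      have i4 := ih a _ _ ha pb gc aS (rS p b bS) (rS g c cS)
      have i5 := ih _ _ _ ga pb gc (rS g a aS) (rS p b bS) (rS g c cS)
      rw [mon_insert, hK, mul_assoc (mon Ψ S), cn_mul τ β g p K aK bK,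
        Finset.card_insert_of_notMem hKS, pow_succ]
      simp only [mul_add, mul_sub, add_mul, sub_mul, mul_smul_comm, smul_mul_assoc, map_add,
        map_sub, map_smul]
      refine (norm_sub_le _ _).trans ?_
      refine (add_le_add_left (norm_add₃_le.trans (add_le_add_left (add_le_add_left
        (norm_sub_le _ _) _) _)) _).trans ?_
      rw [norm_smul, norm_smul, norm_smul]
      simp only [Complex.norm_ofNat]
      linarith
  have := key S 1 1 1 (fun _ => IsStarProjection.one M) (fun _ => IsStarProjection.one M)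
    (fun _ => IsStarProjection.one M) (fun _ _ => rfl) (fun _ _ => rfl) (fun _ _ => rfl)
  simpa [mon] using this

end Crest.Agent.R344
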