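import Crest.Agent.R344.Defs

/-!
Row 344: the approximating polynomial (`PolyStmt`).
-/

set_option autoImplicit false

namespace Crest.Agent.R344

open Finset

namespace Poly

/-- Chebyshev polynomials, evaluated. -/
def ch (x : ℝ) : ℕ → ℝ
  | 0 => 1
  | 1 => x
  | n + 2 => 2 * x * ch x (n + 1) - ch x n

lemma ch_pow {a b : ℝ} (h : a * b = 1) (n : ℕ) : ch ((a + b) / 2) n = (a ^ n + b ^ n) / 2 := by
  induction n using Nat.twoStepInduction with
  | zero => simp [ch]
  | one => simp [ch]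
  | more n h0 h1 =>
    rw [ch, h0, h1]
    linear_combination (a ^ n + b ^ n) / 2 * h

lemma ch_cos (θ : ℝ) (n : ℕ) : ch (Real.cos θ) n = Real.cos (n * θ) := by
  induction n using Nat.twoStepInduction with
  | zero => simp [ch]
  | one => simp [ch]
  | more n h0 h1 =>
    rw [ch, h0, h1]
    have e1 : ((n + 2 : ℕ) : ℝ) * θ = ((n + 1 : ℕ) : ℝ) * θ + θ := by push_cast; ring
    have e2 : (n : ℝ) * θ = ((n + 1 : ℕ) : ℝ) * θ - θ := by push_cast; ring
    rw [e1, e2, Real.cos_add, Real.cos_sub]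
    ring

lemma abs_ch_le_one {x : ℝ} (h1 : -1 ≤ x) (h2 : x ≤ 1) (n : ℕ) : |ch x n| ≤ 1 := by
  rw [← Real.cos_arccos h1 h2, ch_cos]
  exact Real.abs_cos_le_one _

lemma rec_bound {B b : ℝ} (hB : 0 ≤ B) (hb : 2 * B + 1 ≤ b) (n : ℕ) :
    2 * B * b ^ (n + 1) + b ^ n ≤ b ^ (n + 2) := by
  have h1 : 1 ≤ b := by linarith
  have h2 : b ^ n ≤ b ^ (n + 1) := pow_le_pow_right₀ h1 (Nat.le_succ n)
  have h3 : 0 ≤ b ^ (n + 1) := by positivity
  calc 2 * B * b ^ (n + 1) + b ^ n ≤ (2 * B + 1) * b ^ (n + 1) := by linarith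
    _ ≤ b * b ^ (n + 1) := by gcongr
    _ = b ^ (n + 2) := by ring

lemma abs_ch_le {x b : ℝ} (hb : 2 * |x| + 1 ≤ b) (n : ℕ) : |ch x n| ≤ b ^ n := by
  have hx := abs_nonneg x
  induction n using Nat.twoStepInduction with
  | zero => simp [ch]
  | one => simp only [ch, pow_one]; linarith
  | more n h0 h1 =>
    rw [ch]
    refine (abs_sub _ _).trans (le_trans ?_ (rec_bound hx hb n))
    rw [abs_mul, abs_mul, abs_two]
    gcongr

variable {J : Type} [Fintype J] [DecidableEq J]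

/-- `f` is a combination of monomials of weighted `ℓ¹` norm at most `B`. -/
def Rep (f : Finset J → ℝ) (B : ℝ) : Prop :=
  ∃ c : Finset J → ℝ, (∀ y, f y = ∑ S : Finset J, if S ⊆ y then c S else 0) ∧
    ∑ S : Finset J, |c S| * 10 ^ S.card ≤ B

lemma Rep.nonneg {f : Finset J → ℝ} {B : ℝ} (h : Rep f B) : 0 ≤ B := by
  obtain ⟨c, -, hc⟩ := h
  exact le_trans (sum_nonneg fun _ _ => by positivity) hc

lemma Rep.mono {f : Finset J → ℝ} {B B' : ℝ} (h : Rep f B) (hB : B ≤ B') : Rep f B' := by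
  obtain ⟨c, h1, h2⟩ := h
  exact ⟨c, h1, h2.trans hB⟩

lemma Rep.congr {f g : Finset J → ℝ} {B : ℝ} (h : Rep f B) (e : ∀ y, g y = f y) : Rep g B := by
  rwa [funext e]

lemma rep_const (a : ℝ) : Rep (fun _ : Finset J => a) |a| := by
  refine ⟨fun S => if S = ∅ then a else 0, fun y => ?_, ?_⟩
  · rw [Finset.sum_eq_single ∅]
    · simp
    · intro S _ hS; simp [hS]
    · simp
  · rw [Finset.sum_eq_single ∅]
    · simp
    · intro S _ hS; simp [hS]
    · simp

lemma Rep.add {f g : Finset J → ℝ} {B B' : ℝ} (h : Rep f B) (h' : Rep g B') :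
    Rep (fun y => f y + g y) (B + B') := by
  obtain ⟨c, h1, h2⟩ := h
  obtain ⟨c', h1', h2'⟩ := h'
  refine ⟨fun S => c S + c' S, fun y => ?_, ?_⟩
  · dsimp only
    rw [h1, h1', ← sum_add_distrib]
    exact sum_congr rfl fun S _ => by split_ifs <;> simp
  · refine le_trans ?_ (add_le_add h2 h2')
    rw [← sum_add_distrib]
    refine sum_le_sum fun S _ => ?_
    rw [← add_mul]
    gcongr
    exact abs_add_le _ _

lemma Rep.smul {f : Finset J → ℝ} {B : ℝ} (h : Rep f B) (a : ℝ) :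
    Rep (fun y => a * f y) (|a| * B) := by
  obtain ⟨c, h1, h2⟩ := h
  refine ⟨fun S => a * c S, fun y => ?_, ?_⟩
  · dsimp only
    rw [h1, mul_sum]
    exact sum_congr rfl fun S _ => by split_ifs <;> simp
  · refine le_trans (le_of_eq ?_) (mul_le_mul_of_nonneg_left h2 (abs_nonneg a))
    rw [mul_sum]
    exact sum_congr rfl fun S _ => by rw [abs_mul, mul_assoc]

lemma Rep.mul {f g : Finset J → ℝ} {B B' : ℝ} (h : Rep f B) (h' : Rep g B') :
    Rep (fun y => f y * g y) (B * B') := by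
  have hB := h.nonneg
  obtain ⟨c, h1, h2⟩ := h
  obtain ⟨c', h1', h2'⟩ := h'
  refine ⟨fun S => ∑ p : Finset J × Finset J with p.1 ∪ p.2 = S, c p.1 * c' p.2, fun y => ?_, ?_⟩
  · dsimp only
    rw [h1, h1', sum_mul_sum, ← Fintype.sum_prod_type',
      ← Finset.sum_fiberwise univ (fun p : Finset J × Finset J => p.1 ∪ p.2)]
    refine sum_congr rfl fun S _ => ?_
    split_ifs with hS
    · refine sum_congr rfl fun p hp => ?_
      rw [← (mem_filter.1 hp).2, union_subset_iff] at hS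
      rw [if_pos hS.1, if_pos hS.2]
    · refine sum_eq_zero fun p hp => ?_
      rw [← (mem_filter.1 hp).2, union_subset_iff, not_and_or] at hS
      rcases hS with hS | hS <;> simp [hS]
  · calc ∑ S : Finset J, |∑ p : Finset J × Finset J with p.1 ∪ p.2 = S, c p.1 * c' p.2| *
          10 ^ S.card
        ≤ ∑ S : Finset J, ∑ p : Finset J × Finset J with p.1 ∪ p.2 = S,
            (|c p.1| * 10 ^ p.1.card) * (|c' p.2| * 10 ^ p.2.card) := by
          refine sum_le_sum fun S _ => ?_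
          refine (mul_le_mul_of_nonneg_right (abs_sum_le_sum_abs _ _) (by positivity)).trans ?_
          rw [sum_mul]
          refine sum_le_sum fun p hp => ?_
          have hc : (10 : ℝ) ^ S.card ≤ 10 ^ (p.1.card + p.2.card) := by
            rw [← (mem_filter.1 hp).2]
            exact pow_le_pow_right₀ (by norm_num) (card_union_le _ _)
          calc |c p.1 * c' p.2| * 10 ^ S.card ≤ |c p.1 * c' p.2| * 10 ^ (p.1.card + p.2.card) := by
                gcongr
            _ = _ := by rw [abs_mul, pow_add]; ring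
      _ = (∑ S : Finset J, |c S| * 10 ^ S.card) * ∑ S : Finset J, |c' S| * 10 ^ S.card := by
          rw [Finset.sum_fiberwise univ (fun p : Finset J × Finset J => p.1 ∪ p.2), sum_mul_sum,
            ← Fintype.sum_prod_type']
      _ ≤ B * B' := mul_le_mul h2 h2' (sum_nonneg fun _ _ => by positivity) hB

lemma rep_mem (K : J) : Rep (fun y : Finset J => if K ∈ y then (1 : ℝ) else 0) 10 := by
  refine ⟨fun S => if S = {K} then 1 else 0, fun y => ?_, ?_⟩
  · rw [Finset.sum_eq_single {K}]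
    · simp
    · intro S _ hS; simp [hS]
    · simp
  · rw [Finset.sum_eq_single {K}]
    · simp
    · intro S _ hS; simp [hS]
    · simp

lemma rep_sum {α : Type} (s : Finset α) (f : α → Finset J → ℝ) (B : ℝ)
    (h : ∀ a ∈ s, Rep (f a) B) : Rep (fun y => ∑ a ∈ s, f a y) (s.card * B) := by
  classical
  induction s using Finset.induction_on with
  | empty => simpa using rep_const (J := J) 0
  | insert a s ha ih =>
    have := (h a (mem_insert_self _ _)).add (ih fun b hb => h b (mem_insert_of_mem hb))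
    refine (this.congr fun y => by rw [sum_insert ha]).mono (le_of_eq ?_)
    rw [card_insert_of_notMem ha]; push_cast; ring

lemma rep_prod {α : Type} (s : Finset α) (f : α → Finset J → ℝ) (B : ℝ)
    (h : ∀ a ∈ s, Rep (f a) B) : Rep (fun y => ∏ a ∈ s, f a y) (B ^ s.card) := by
  classical
  induction s using Finset.induction_on with
  | empty => simpa using rep_const (J := J) 1
  | insert a s ha ih =>
    have := (h a (mem_insert_self _ _)).mul (ih fun b hb => h b (mem_insert_of_mem hb))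
    refine (this.congr fun y => by rw [prod_insert ha]).mono (le_of_eq ?_)
    rw [card_insert_of_notMem ha]; ring

lemma rep_card : Rep (fun y : Finset J => (y.card : ℝ)) (Fintype.card J * 10) :=
  (rep_sum univ _ 10 fun K _ => rep_mem K).congr fun y => by simp

lemma rep_aff {N : ℕ} (hN : Fintype.card J ≤ N) (a b : ℝ) :
    Rep (fun y : Finset J => a + b * y.card) (|a| + |b| * (N * 10)) := by
  refine ((rep_const a).add (rep_card.smul b)).mono ?_
  have : (Fintype.card J : ℝ) ≤ N := by exact_mod_cast hN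
  gcongr

lemma Rep.ch {f : Finset J → ℝ} {B b : ℝ} (h : Rep f B) (hb : 2 * B + 1 ≤ b) (n : ℕ) :
    Rep (fun y => ch (f y) n) (b ^ n) := by
  have hB := h.nonneg
  induction n using Nat.twoStepInduction with
  | zero => simpa [Poly.ch] using rep_const (J := J) 1
  | one => exact h.mono (by simp only [pow_one]; linarith)
  | more n h0 h1 =>
    refine ((((h.smul 2).mul h1).add (h0.smul (-1))).congr fun y => by
      rw [Poly.ch]; ring).mono ?_
    simpa using rec_bound hB hb n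

end Poly

open _root_.Crest.Agent.R344.Poly in
theorem polyStmt : PolyStmt := by
  intro J _ _ N ℓ m s hJ hℓ hm hs
  have hℓ1 : 1 ≤ ℓ := by
    rcases Nat.eq_zero_or_pos ℓ with rfl | h
    · simp at hℓ
    · exact h
  have hℓR : (40 * N + 5 : ℝ) ≤ 2 ^ ℓ := by exact_mod_cast hℓ
  have hsR : (1 : ℝ) ≤ s := by exact_mod_cast hs
  have hmR : (1 : ℝ) ≤ m := by exact_mod_cast hm
  have hN0 : (0 : ℝ) ≤ N := Nat.cast_nonneg N
  set g : ℕ := 4 * m * ℓ * s with hg
  set T : ℝ := 4 * m * s ^ 2 with hT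
  have hT4 : 4 ≤ T := by
    have : (1 : ℝ) ≤ m * s ^ 2 := one_le_mul_of_one_le_of_one_le hmR (one_le_pow₀ hsR)
    rw [hT]; linarith
  have hT0 : 0 < T := by linarith
  set ρ : ℝ := 1 + 1 / s with hρ
  have hs0 : (0 : ℝ) < s := by linarith
  have hρ1 : 1 ≤ ρ := by rw [hρ]; have : (0 : ℝ) ≤ 1 / s := by positivity
                         linarith
  have hρ0 : 0 < ρ := by linarith
  set x0 : ℝ := (ρ + ρ⁻¹) / 2 with hx0
  have hx0e : x0 - 1 = (1 / s) ^ 2 / (2 * ρ) := by
    have : (1 : ℝ) / s = ρ - 1 := by rw [hρ]; ring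
    rw [this, hx0]; field_simp; ring
  have hx1 : 1 ≤ x0 := by
    have : 0 ≤ (1 / (s : ℝ)) ^ 2 / (2 * ρ) := by positivity
    linarith
  have hx2 : x0 - 1 ≤ 2 * m / T := by
    rw [hx0e]
    calc (1 / (s : ℝ)) ^ 2 / (2 * ρ) ≤ (1 / (s : ℝ)) ^ 2 / (2 * 1) := by gcongr
      _ = 2 * m / T := by rw [hT]; field_simp; norm_num
  have hx3 : x0 ≤ 2 := by
    have h1 : (1 / (s : ℝ)) ^ 2 ≤ 1 := pow_le_one₀ (by positivity) (by rw [div_le_one hs0]; exact hsR)
    have : (1 / (s : ℝ)) ^ 2 / (2 * ρ) ≤ 1 / (2 * 1) := by gcongr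
    linarith
  have hbern : (2 : ℝ) ≤ ρ ^ s := by
    have := one_add_mul_le_pow (a := 1 / (s : ℝ)) (by
      have : (0 : ℝ) ≤ 1 / s := by positivity
      linarith) s
    rw [mul_one_div_cancel hs0.ne'] at this
    rw [hρ]; linarith
  have hden : (2 : ℝ) ^ (4 * m * ℓ) / 2 ≤ ch x0 g := by
    rw [hx0, ch_pow (mul_inv_cancel₀ hρ0.ne')]
    have h1 : (2 : ℝ) ^ (4 * m * ℓ) ≤ ρ ^ g := by
      rw [hg, mul_comm _ s, pow_mul ρ]; gcongr
    have h2 : 0 ≤ ρ⁻¹ ^ g := by positivity
    linarith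
  have hml : 1 ≤ m * ℓ := Nat.mul_pos hm hℓ1
  have hden1 : 1 ≤ ch x0 g := by
    refine le_trans ?_ hden
    have : (2 : ℝ) ^ 1 ≤ 2 ^ (4 * m * ℓ) := pow_le_pow_right₀ (by norm_num) (by nlinarith)
    linarith
  have hden0 : 0 < ch x0 g := by linarith
  let P : ℕ → ℝ := fun w => ∏ j ∈ range m, (1 + -(1 / ((j : ℝ) + 1)) * w)
  have hP : ∀ w, w ≤ N → |P w| ≤ 2 ^ (ℓ * m) := by
    intro w hw
    have hwR : (w : ℝ) ≤ N := by exact_mod_cast hw
    rw [abs_prod, pow_mul]
    refine (prod_le_prod (g := fun _ => (2 : ℝ) ^ ℓ) (fun _ _ => abs_nonneg _)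
      fun j _ => ?_).trans (by rw [prod_const, card_range])
    have h1 : 1 / ((j : ℝ) + 1) ≤ 1 := by
      rw [div_le_one (by positivity)]
      have : (0 : ℝ) ≤ j := Nat.cast_nonneg j
      linarith
    have h2 : 1 / ((j : ℝ) + 1) * w ≤ 1 * N := by gcongr
    have h3 : 0 ≤ 1 / ((j : ℝ) + 1) * w := by positivity
    exact abs_le.2 ⟨by linarith, by linarith⟩
  have hrep : Rep (fun y : Finset J => (ch x0 g)⁻¹ * (P y.card * ch (x0 + -(2 / T) * y.card) g))
      (2 ^ (ℓ * (g + m))) := by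
    have r1 : Rep (fun y : Finset J => P y.card) (((2 : ℝ) ^ ℓ) ^ (range m).card) := by
      refine rep_prod (range m) (fun j y => 1 + -(1 / ((j : ℝ) + 1)) * y.card) _ fun j _ => ?_
      refine (rep_aff hJ _ _).mono ?_
      have h1 : |-(1 / ((j : ℝ) + 1))| ≤ 1 := by
        rw [abs_neg, abs_of_nonneg (by positivity), div_le_one (by positivity)]
        have : (0 : ℝ) ≤ j := Nat.cast_nonneg j
        linarith
      have h2 : |-(1 / ((j : ℝ) + 1))| * (N * 10) ≤ 1 * (N * 10) := by gcongr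
      rw [abs_one]; linarith
    have r2 : Rep (fun y : Finset J => ch (x0 + -(2 / T) * y.card) g) (((2 : ℝ) ^ ℓ) ^ g) := by
      refine (rep_aff hJ x0 (-(2 / T))).ch ?_ g
      have h1 : |-(2 / T)| ≤ 1 := by
        rw [abs_neg, abs_of_nonneg (by positivity), div_le_one hT0]; linarith
      have h2 : |-(2 / T)| * (N * 10) ≤ 1 * (N * 10) := by gcongr
      rw [abs_of_nonneg (by linarith : 0 ≤ x0)]; linarith
    refine ((r1.mul r2).smul _).mono ?_
    rw [card_range, ← pow_add, ← pow_mul, add_comm m g]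
    refine mul_le_of_le_one_left (by positivity) ?_
    rw [abs_of_nonneg (inv_nonneg.2 hden0.le)]
    exact inv_le_one_of_one_le₀ hden1
  obtain ⟨c, hc1, hc2⟩ := hrep
  refine ⟨fun w => (ch x0 g)⁻¹ * (P w * ch (x0 + -(2 / T) * w) g), c, ?_, ?_, ?_, hc1, hc2⟩
  · simp [P, hden0.ne']
  · intro w hw1 hwN hwT
    by_cases hwm : w ≤ m
    · have : P w = 0 := by
        refine prod_eq_zero (i := w - 1) (mem_range.2 (by omega)) ?_
        have e : ((w - 1 : ℕ) : ℝ) + 1 = w := by
          rw [Nat.cast_sub hw1]; simp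
        have hw0 : (w : ℝ) ≠ 0 := by exact_mod_cast (by omega : w ≠ 0)
        rw [e]; field_simp; ring
      simp [this]
    · have hwm' : (m : ℝ) ≤ w := by exact_mod_cast (by omega : m ≤ w)
      have hwT' : (w : ℝ) ≤ T := by rw [hT]; exact_mod_cast hwT
      have h1 : 2 * m / T ≤ 2 / T * w := by
        rw [div_mul_eq_mul_div]; gcongr
      have h2 : 2 / T * w ≤ 2 := by
        rw [div_mul_eq_mul_div, div_le_iff₀ hT0]; linarith
      have h3 := abs_ch_le_one (x := x0 + -(2 / T) * w) (by linarith) (by linarith) g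
      have h4 := hP w hwN
      simp only [abs_mul]
      rw [abs_of_nonneg (inv_nonneg.2 hden0.le), inv_mul_le_iff₀ hden0]
      calc |P w| * |ch (x0 + -(2 / T) * w) g| ≤ 2 ^ (ℓ * m) * 1 := by gcongr
        _ ≤ (2 ^ (4 * m * ℓ) / 2) * (1 / 2) ^ (2 * m * ℓ) := by
          have e : (2 : ℝ) ^ (4 * m * ℓ) = 2 ^ (2 * m * ℓ) * 2 ^ (2 * m * ℓ) := by
            rw [← pow_add]; congr 1; ring
          have h5 : (2 : ℝ) ^ (ℓ * m + 1) ≤ 2 ^ (2 * m * ℓ) :=
            pow_le_pow_right₀ (by norm_num) (by nlinarith)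
          rw [e, one_div_pow]
          rw [pow_succ] at h5
          field_simp
          linarith
        _ ≤ ch x0 g * (1 / 2) ^ (2 * m * ℓ) := by gcongr
  · intro j w hj hwN hwT
    have hwT' : (w : ℝ) ≤ (j + 1) * T := by rw [hT]; exact_mod_cast hwT.le
    have hjR : (1 : ℝ) ≤ j := by exact_mod_cast hj
    have h2 : 2 / T * w ≤ 2 * (j + 1) := by
      rw [div_mul_eq_mul_div, div_le_iff₀ hT0]; linarith
    have h2' : 0 ≤ 2 / T * w := by positivity
    have h16 : (4 * j + 5 : ℝ) ≤ 2 ^ (4 * j) := by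
      have := one_add_mul_le_pow (a := (15 : ℝ)) (by norm_num) j
      rw [pow_mul]; norm_num at this ⊢; linarith
    have h3 := abs_ch_le (x := x0 + -(2 / T) * w) (b := 2 ^ (4 * j)) (by
      have : |x0 + -(2 / T) * w| ≤ 2 * (j + 1) := abs_le.2 ⟨by linarith, by linarith⟩
      linarith) g
    have h4 := hP w hwN
    simp only [abs_mul]
    rw [abs_of_nonneg (inv_nonneg.2 hden0.le)]
    refine (mul_le_of_le_one_left (by positivity) (inv_le_one_of_one_le₀ hden1)).trans ?_
    rw [pow_add, pow_mul _ (4 * j)]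
    gcongr

end Crest.Agent.R344
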