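import Crest.Agent.R344.Defs

/-!
Row 344: spectral families of commuting projectors, the criterion for `ToCtr`, depth zero.
-/

set_option maxHeartbeats 400000

namespace Crest.Agent.R344

namespace SpecAux

variable {J A : Type} [Fintype J] [DecidableEq J] [CStarAlgebra A]

/-- evaluation at the empty pattern -/
noncomputable def base : Spec J A where
  toFun f := algebraMap ℂ A (f ∅)
  map_one' := by simp
  map_mul' f g := by simp
  map_zero' := by simp
  map_add' f g := by simp
  commutes' c := rfl
  map_star' f := algebraMap_star_comm (f ∅)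

/-- precomposition with a map of patterns -/
def pre (u : Finset J → Finset J) : (Finset J → ℂ) →⋆ₐ[ℂ] (Finset J → ℂ) where
  toFun f := fun y => f (u y)
  map_one' := rfl
  map_mul' _ _ := rfl
  map_zero' := rfl
  map_add' _ _ := rfl
  commutes' _ := rfl
  map_star' _ := rfl

/-- gluing two families along a commuting projector -/
noncomputable def glue (Φ₀ Φ₁ : Spec J A) (n : A) (hn : IsStarProjection n)
    (h₀ : ∀ f, Commute (Φ₀ f) n) (h₁ : ∀ f, Commute (Φ₁ f) n) : Spec J A where
  toFun f := Φ₀ f * (1 - n) + Φ₁ f * n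
  map_one' := by simp
  map_mul' f g := by
    have e : n * n = n := hn.isIdempotentElem.eq
    have a0 : ∀ x, n * (Φ₀ g * x) = Φ₀ g * (n * x) := fun x => by
      rw [← mul_assoc, ← (h₀ g).eq, mul_assoc]
    have a1 : ∀ x, n * (Φ₁ g * x) = Φ₁ g * (n * x) := fun x => by
      rw [← mul_assoc, ← (h₁ g).eq, mul_assoc]
    simp only [map_mul, mul_add, add_mul, mul_sub, sub_mul, mul_one, one_mul, mul_assoc, a0, a1, e,
      ← (h₀ g).eq]
    abel
  map_zero' := by simp
  map_add' f g := by simp only [map_add, add_mul]; abel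
  commutes' c := by simp only [AlgHomClass.commutes, ← mul_add, sub_add_cancel, mul_one]
  map_star' f := by
    have s : star n = n := hn.isSelfAdjoint.star_eq
    simp only [star_add, star_mul, star_sub, star_one, s, ← map_star, sub_mul, mul_sub, one_mul,
      mul_one, (h₀ _).eq, (h₁ _).eq]

theorem spec_ind_not (Φ : Spec J A) (K : J) : Φ (ind fun y => K ∉ y) = 1 - nn Φ K := by
  have : (ind fun y : Finset J => K ∉ y) = 1 - ind fun y => K ∈ y := by
    funext y; by_cases h : K ∈ y <;> simp [ind, h]
  rw [this, map_sub, map_one, nn]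

/-- product functions -/
def pf (S : Finset J) (c0 c1 : ℂ) : Finset J → ℂ := fun y => ∏ K ∈ S, if K ∈ y then c1 else c0

theorem pf_empty (Φ : Spec J A) (c0 c1 : ℂ) : Φ (pf ∅ c0 c1) = 1 := by
  have : pf (∅ : Finset J) c0 c1 = 1 := by funext y; simp [pf]
  rw [this, map_one]

theorem pf_insert (Φ : Spec J A) {K : J} {S : Finset J} (hK : K ∉ S) (c0 c1 : ℂ) :
    Φ (pf (insert K S) c0 c1) = Φ (pf S c0 c1) * (c0 • 1 + (c1 - c0) • nn Φ K) := by
  have : pf (insert K S) c0 c1 =
      pf S c0 c1 * (c0 • (1 : Finset J → ℂ) + (c1 - c0) • ind fun y => K ∈ y) := by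
    funext y
    by_cases h : K ∈ y <;> simp [pf, Finset.prod_insert hK, ind, h, mul_comm]
  rw [this, map_mul, map_add, map_smul, map_smul, map_one, nn]

theorem commute_pf (Φ : Spec J A) (x : A) (c0 c1 : ℂ) (S : Finset J)
    (h : ∀ K ∈ S, Commute x (nn Φ K)) : Commute x (Φ (pf S c0 c1)) := by
  induction S using Finset.induction_on with
  | empty => rw [pf_empty]; exact Commute.one_right _
  | insert K S hK ih =>
    rw [pf_insert Φ hK]
    exact (ih fun K' hK' => h K' (Finset.mem_insert_of_mem hK')).mul_right
      (((Commute.one_right x).smul_right _).add_right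
        ((h K (Finset.mem_insert_self _ _)).smul_right _))

theorem norm_factor {n p : A} (hn : IsStarProjection n) (hp : IsStarProjection p) :
    ‖((1 : ℂ) • (1 : A) + (((√2 : ℝ) : ℂ) - 1) • n) * p *
      ((1 : ℂ) • (1 : A) + ((0 : ℂ) - 1) • n)‖ ≤ 1 := by
  let _ := CStarAlgebra.spectralOrder A
  have := CStarAlgebra.spectralOrderedRing A
  set r : ℂ := ((√2 : ℝ) : ℂ) with hr
  have hr2 : r * r = 2 := by
    rw [hr, ← Complex.ofReal_mul, Real.mul_self_sqrt (by norm_num)]; norm_num
  have hrs : star r = r := by rw [hr]; exact Complex.conj_ofReal _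
  have en : n * n = n := hn.isIdempotentElem.eq
  have ep : p * p = p := hp.isIdempotentElem.eq
  have sn : star n = n := hn.isSelfAdjoint.star_eq
  have sp : star p = p := hp.isSelfAdjoint.star_eq
  set u : A := (1 : ℂ) • (1 : A) + (r - 1) • n with hu
  have hq : (1 : ℂ) • (1 : A) + ((0 : ℂ) - 1) • n = 1 - n := by simp [sub_eq_add_neg]
  rw [hq]
  set q : A := 1 - n with hqdef
  have sq : star q = q := by simp [hqdef, sn]
  have eq : q * q = q := by simp [hqdef, mul_sub, sub_mul, en]
  have su : star u = u := by simp [hu, sn, hrs]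
  have uu : u * u = 2 - q := by
    have : u * u = 1 + (r * r - 1) • n := by
      simp only [hu, one_smul, mul_add, add_mul, one_mul, mul_one, smul_mul_smul_comm, en]
      module
    rw [this, hr2, hqdef]
    norm_num
    rw [← one_add_one_eq_two]; abel
  have key : star (u * p * q) * (u * p * q) = 1 - star (1 - q * p * q) * (1 - q * p * q) := by
    have e1 : star (u * p * q) * (u * p * q) = q * p * (u * u) * p * q := by
      simp only [star_mul, su, sp, sq, mul_assoc]
    have ep' : ∀ x, p * (p * x) = p * x := fun x => by rw [← mul_assoc, ep]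
    have eq' : ∀ x, q * (q * x) = q * x := fun x => by rw [← mul_assoc, eq]
    rw [e1, uu, ← one_add_one_eq_two]
    simp only [star_sub, star_one, star_mul, sp, sq, mul_sub, sub_mul, mul_add, add_mul, one_mul,
      mul_one, mul_assoc, ep', eq']
    abel
  have h1 : ‖star (u * p * q) * (u * p * q)‖ ≤ 1 := by
    rw [CStarAlgebra.norm_le_one_iff_of_nonneg _ (star_mul_self_nonneg _), key]
    exact sub_le_self _ (star_mul_self_nonneg _)
  rw [CStarRing.norm_star_mul_self] at h1
  nlinarith [norm_nonneg (u * p * q)]

variable {ι M : Type} [Fintype ι] [DecidableEq ι] [Monoid M] [StarMul M]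

/-- restriction of a product family to a union of blocks -/
def resS (β : ι → ι) (S : Finset ι) (a : ι → M) : ι → M := fun i => if β i ∈ S then a i else 1

omit [Fintype ι] [StarMul M] in
theorem resS_insert (β : ι → ι) {K : ι} {S : Finset ι} (hK : K ∉ S) (a : ι → M) :
    resS β (insert K S) a = resS β S a * res β K a := by
  funext i
  by_cases h : β i = K
  · simp [resS, res, h, hK]
  · simp [resS, res, h]

omit [Fintype ι] in
theorem cn_comm (τ : (ι → M) →⋆* A) (β : ι → ι) (g p : ι → M) (K : ι) {b : ι → M}
    (hb : ∀ i, β i = K → b i = 1) : Commute (τ b) (cn τ β g p K) := by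
  have h : ∀ c : ι → M, Commute (τ b) (τ (res β K c)) := fun c =>
    tau_comm τ fun i => by
      by_cases h : β i = K
      · exact Or.inl (hb i h)
      · exact Or.inr (by simp [res, h])
  have hr : Commute (τ b) (refl τ β g K) := (Commute.one_right _).sub_right ((h g).smul_right _)
  exact (Commute.one_right _).sub_right ((hr.mul_right (h p)).mul_right hr)

end SpecAux

open SpecAux

theorem specStmt : SpecStmt := by
  intro J A _ _ _ n hn hc
  suffices h : ∀ S : Finset J, ∃ Φ : Spec J A, (∀ K ∈ S, nn Φ K = n K) ∧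
      ∀ f K, Commute (Φ f) (n K) by
    obtain ⟨Φ, h, -⟩ := h Finset.univ
    exact ⟨Φ, fun K => h K (Finset.mem_univ K)⟩
  intro S
  induction S using Finset.induction_on with
  | empty => exact ⟨base, by simp, fun f K => Algebra.commutes _ _⟩
  | insert K S hK ih =>
    obtain ⟨Φ, h1, h2⟩ := ih
    refine ⟨glue (Φ.comp (pre fun y => y.erase K)) (Φ.comp (pre fun y => insert K y)) (n K) (hn K)
      (fun f => h2 _ K) (fun f => h2 _ K), fun K' hK' => ?_, fun f K' => ?_⟩
    · change Φ (fun y => ind (fun y => K' ∈ y) (y.erase K)) * (1 - n K) +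
        Φ (fun y => ind (fun y => K' ∈ y) (insert K y)) * n K = n K'
      by_cases h : K' = K
      · subst h
        have e0 : (fun y : Finset J => ind (fun y => K' ∈ y) (y.erase K')) = 0 := by
          funext y; simp [ind]
        have e1 : (fun y : Finset J => ind (fun y => K' ∈ y) (insert K' y)) = 1 := by
          funext y; simp [ind]
        rw [e0, e1, map_zero, map_one, zero_mul, zero_add, one_mul]
      · have e0 : (fun y : Finset J => ind (fun y => K' ∈ y) (y.erase K)) =
            ind fun y => K' ∈ y := by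
          funext y; simp [ind, h]
        have e1 : (fun y : Finset J => ind (fun y => K' ∈ y) (insert K y)) =
            ind fun y => K' ∈ y := by
          funext y; simp [ind, h]
        rw [e0, e1, ← mul_add, sub_add_cancel, mul_one]
        exact h1 K' ((Finset.mem_insert.1 hK').resolve_left h)
    · exact ((h2 _ K').mul_left ((Commute.one_left _).sub_left (hc K K'))).add_left
        ((h2 _ K').mul_left (hc K K'))

theorem critStmt : CritStmt := by
  intro ι M A _ _ _ _ _ τ α β g a p _ ha _ h
  obtain ⟨Φ, hΦ⟩ := specStmt ι A (fun K => 1 - τ (res β K a))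
    (fun K => ((ha.res β K).map τ).one_sub) (fun K K' => by
      have : Commute (τ (res β K a)) (τ (res β K' a)) := by
        by_cases hK : K = K'
        · rw [hK]
        · refine tau_comm τ fun i => ?_
          by_cases h1 : β i = K
          · exact Or.inr (by simp [res, h1, hK])
          · exact Or.inl (by simp [res, h1])
      exact (Commute.one_left _).sub_left ((Commute.one_right _).sub_right this))
  have key : ∀ S : Finset ι, Φ (ind fun y => ∀ K ∈ S, K ∉ y) = τ (resS β S a) := by
    intro S
    induction S using Finset.induction_on with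
    | empty =>
      have e1 : (ind fun y : Finset ι => ∀ K ∈ (∅ : Finset ι), K ∉ y) = 1 := by
        funext y; simp [ind]
      have e2 : resS β ∅ a = 1 := by funext i; simp [resS]
      rw [e1, e2, map_one, map_one]
    | insert K S hK ih =>
      rw [resS_insert β hK, map_mul, ← ih]
      have : τ (res β K a) = Φ (ind fun y => K ∉ y) := by rw [spec_ind_not, hΦ, sub_sub_cancel]
      rw [this, ← map_mul, ind_mul]
      congr 1
      exact ind_congr fun y => by simp [and_comm]
  refine ⟨Φ.map α, fun K => ?_, ?_⟩
  · change α (nn Φ K) = _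
    rw [hΦ, map_sub, map_one, h, cn]
  · change _ = α (gr Φ)
    congr 1
    have e2 : resS β Finset.univ a = a := by funext i; simp [resS]
    rw [← e2, ← key, gr]
    congr 1
    exact ind_congr fun y => by simp [Finset.eq_empty_iff_forall_notMem]

theorem baseStmt : BaseStmt := by
  intro ι M A _ _ _ _ _ τ Φ ⟨β, g, p, _, _, hΦ⟩ a ha k
  set r : ℂ := ((√2 : ℝ) : ℂ) with hr
  have key : ∀ S : Finset ι, ‖Φ (pf S 1 r) * τ (resS β S a) * Φ (pf S 1 0)‖ ≤ 1 := by
    intro S
    induction S using Finset.induction_on with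
    | empty =>
      have e2 : resS β ∅ a = 1 := by funext i; simp [resS]
      rw [pf_empty, pf_empty, e2, map_one, one_mul, one_mul]
      exact (IsStarProjection.one A).norm_le
    | insert K S hK ih =>
      rw [pf_insert Φ hK, pf_insert Φ hK, resS_insert β hK, map_mul]
      have c1 : Commute (τ (resS β S a)) (nn Φ K) := by
        rw [hΦ]; exact cn_comm τ β g p K fun i hi => by simp [resS, hi, hK]
      have c2 : Commute (τ (res β K a)) (Φ (pf S 1 0)) := commute_pf Φ _ _ _ S fun K' hK' => by
        rw [hΦ]
        refine cn_comm τ β g p K' fun i hi => ?_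
        have : β i ≠ K := fun e => hK (by rw [← e, hi]; exact hK')
        simp [res, this]
      have c3 : Commute (nn Φ K) (Φ (pf S 1 0)) := spec_comm Φ _ _
      set u : A := (1 : ℂ) • (1 : A) + (r - 1) • nn Φ K with hu
      set q : A := (1 : ℂ) • (1 : A) + ((0 : ℂ) - 1) • nn Φ K
      have c4 : Commute u (τ (resS β S a)) :=
        ((Commute.one_left _).smul_left _).add_left (c1.symm.smul_left _)
      have c5 : Commute u (Φ (pf S 1 0)) :=
        ((Commute.one_left _).smul_left _).add_left (c3.smul_left _)
      have e : Φ (pf S 1 r) * u * (τ (resS β S a) * τ (res β K a)) * (Φ (pf S 1 0) * q) =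
          (Φ (pf S 1 r) * τ (resS β S a) * Φ (pf S 1 0)) * (u * τ (res β K a) * q) := by
        simp only [mul_assoc]
        congr 1
        rw [← mul_assoc u, c4.eq, mul_assoc]
        congr 1
        rw [← mul_assoc (τ _), c2.eq, mul_assoc, ← mul_assoc u, c5.eq, mul_assoc]
      rw [e]
      have h2 := norm_factor (n := nn Φ K) (ind_proj Φ _) ((ha.res β K).map τ)
      exact (norm_mul_le _ _).trans (mul_le_one₀ ih (norm_nonneg _) h2)
  have h1 := key Finset.univ
  have e2 : resS β Finset.univ a = a := by funext i; simp [resS]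
  have e3 : Φ (pf Finset.univ 1 0) = gr Φ := by
    rw [gr]; congr 1; funext y
    by_cases hy : y = ∅
    · simp [pf, ind, hy]
    · obtain ⟨K, hK⟩ := Finset.nonempty_iff_ne_empty.2 hy
      simp only [pf, ind, hy, if_false]
      exact Finset.prod_eq_zero (Finset.mem_univ K) (by simp [hK])
  have hr0 : r ≠ 0 := by simp [hr]
  have e4 : hi Φ (k * 2) = Φ (fun y => if k * 2 ≤ y.card then (r ^ y.card)⁻¹ else 0) *
      Φ (pf Finset.univ 1 r) := by
    rw [← map_mul, hi]; congr 1; funext y
    have : pf Finset.univ 1 r y = r ^ y.card := by simp [pf]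
    by_cases h : k * 2 ≤ y.card <;> simp [ind, h, this, hr0]
  have h3 : ‖Φ (fun y => if k * 2 ≤ y.card then (r ^ y.card)⁻¹ else 0)‖ ≤ (1 / 2 : ℝ) ^ k := by
    refine spec_norm_le Φ _ (by positivity) fun y => ?_
    split_ifs with h
    · have hn : ‖r‖ = √2 := by simp [hr]
      have h1' : (1 : ℝ) ≤ √2 := Real.one_le_sqrt.2 (by norm_num)
      rw [norm_inv, norm_pow, hn, one_div, inv_pow]
      refine inv_anti₀ (by positivity) ?_
      calc (2 : ℝ) ^ k = √2 ^ (k * 2) := by
            rw [mul_comm, pow_mul, Real.sq_sqrt (by norm_num)]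
        _ ≤ _ := pow_le_pow_right₀ h1' h
    · simp
  rw [e2, e3] at h1
  change ‖hi Φ (k * 2) * τ a * gr Φ‖ ≤ _
  rw [e4, mul_assoc, mul_assoc, ← mul_assoc (Φ (pf _ _ _))]
  calc _ ≤ _ := norm_mul_le _ _
    _ ≤ (1 / 2 : ℝ) ^ k * 1 := by gcongr
    _ = _ := mul_one _

end Crest.Agent.R344
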